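import Mathlib

/-!
# P198: definitions of the statement, in terms of `SimpleGraph`
-/

namespace Vale.Agent.P198.H372

open Set Topology

section

variable {V : Type} (Γ : SimpleGraph V)

/-- each side of each geodesic triangle of the graph lies in the `δ`-neighbourhood of the union of
the other two sides -/
def ThinTriangles (δ : ℝ) : Prop :=
  ∀ (x y z : V) (p : Γ.Walk x y) (q : Γ.Walk y z) (r : Γ.Walk z x),
    p.length = Γ.dist x y → q.length = Γ.dist y z → r.length = Γ.dist z x →
    ∀ v ∈ p.support, ∃ w, (w ∈ q.support ∨ w ∈ r.support) ∧ (Γ.dist v w : ℝ) ≤ δ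

/-- (the vertices of) a geodesic ray from `o` -/
def GeodesicRay (o : V) : Type :=
  {r : ℕ → V // r 0 = o ∧ ∀ m n, m ≤ n → Γ.dist (r m) (r n) = n - m}

/-- the topology of pointwise convergence of rays -/
instance (o : V) : TopologicalSpace (GeodesicRay Γ o) :=
  ⨅ n : ℕ, TopologicalSpace.induced (fun r : GeodesicRay Γ o => r.1 n) ⊥

/-- two sequences of vertices are at finite Hausdorff distance -/
def Asymptotic (r r' : ℕ → V) : Prop :=
  ∃ C : ℕ, (∀ n, ∃ m, Γ.dist (r n) (r' m) ≤ C) ∧ ∀ n, ∃ m, Γ.dist (r' n) (r m) ≤ C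

/-- the boundary: geodesic rays from `o` modulo finite Hausdorff distance, with the quotient
topology -/
def Boundary (o : V) : Type :=
  Quot fun r r' : GeodesicRay Γ o => Asymptotic Γ r.1 r'.1

instance (o : V) : TopologicalSpace (Boundary Γ o) :=
  inferInstanceAs (TopologicalSpace (Quot _))

/-- the point at infinity of a ray -/
def GeodesicRay.limit {Γ : SimpleGraph V} {o : V} (r : GeodesicRay Γ o) : Boundary Γ o :=
  Quot.mk _ r

end

end Vale.Agent.P198.H372
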