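import Vale.Agent.P198.H3.Geo3

/-!
# P198: convergence to a point at infinity from the visual function
-/

open Real Metric OnePoint Filter Topology
open scoped ComplexConjugate

namespace Vale.Agent.P198.H372

open P198H P198H.H3

theorem V_coe (p : H3) (a b : ℂ) : p.V (a : OnePoint ℂ) (b : OnePoint ℂ) =
    ‖a - b‖ ^ 2 * p.t ^ 2 / ((‖a - p.z‖ ^ 2 + p.t ^ 2) * (‖b - p.z‖ ^ 2 + p.t ^ 2)) := by
  have ht := p.t_pos
  rw [V, Vv, vec_coe, vec_coe, Qf, Qf, dtv]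
  simp only [Matrix.cons_val_zero, Matrix.cons_val_one, mul_one, one_mul, norm_one, one_pow]
  have h1 : 0 < ‖a - p.z‖ ^ 2 + p.t ^ 2 := by positivity
  have h2 : 0 < ‖b - p.z‖ ^ 2 + p.t ^ 2 := by positivity
  have h3 : ‖a - p.z‖ ^ 2 / p.t + p.t = (‖a - p.z‖ ^ 2 + p.t ^ 2) / p.t := by field_simp
  have h4 : ‖b - p.z‖ ^ 2 / p.t + p.t = (‖b - p.z‖ ^ 2 + p.t ^ 2) / p.t := by field_simp
  rw [h3, h4]
  field_simp

theorem V_infty (p : H3) (b : ℂ) : p.V ∞ (b : OnePoint ℂ) =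
    p.t ^ 2 / (‖b - p.z‖ ^ 2 + p.t ^ 2) := by
  have ht := p.t_pos
  rw [V, Vv, vec_infty, vec_coe, Qf, Qf, dtv]
  simp only [Matrix.cons_val_zero, Matrix.cons_val_one, mul_one, one_mul, norm_one, one_pow,
    mul_zero, sub_zero, norm_zero, zero_mul]
  have h2 : 0 < ‖b - p.z‖ ^ 2 + p.t ^ 2 := by positivity
  have h4 : ‖b - p.z‖ ^ 2 / p.t + p.t = (‖b - p.z‖ ^ 2 + p.t ^ 2) / p.t := by field_simp
  rw [h4]
  field_simp
  simp

theorem mul_le_of_V {p : H3} {a b : ℂ} (h : 1 / 4 ≤ p.V (a : OnePoint ℂ) (b : OnePoint ℂ)) :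
    (‖a - p.z‖ ^ 2 + p.t ^ 2) * (‖b - p.z‖ ^ 2 + p.t ^ 2) ≤ 4 * (‖a - b‖ ^ 2 * p.t ^ 2) := by
  have ht := p.t_pos
  rw [V_coe, le_div_iff₀ (by positivity)] at h
  linarith

theorem le_of_V {p : H3} {a b : ℂ} (h : 1 / 4 ≤ p.V (a : OnePoint ℂ) (b : OnePoint ℂ)) :
    ‖a - p.z‖ ^ 2 + p.t ^ 2 ≤ 4 * ‖a - b‖ ^ 2 := by
  have ht := p.t_pos
  have h1 := mul_le_of_V h
  have h2 : (‖a - p.z‖ ^ 2 + p.t ^ 2) * p.t ^ 2 ≤ 4 * ‖a - b‖ ^ 2 * p.t ^ 2 := by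
    refine le_trans ?_ (h1.trans (le_of_eq (by ring)))
    gcongr
    have := sq_nonneg ‖b - p.z‖
    linarith
  exact le_of_mul_le_mul_right h2 (by positivity)

theorem near_of_V {p : H3} {z₀ : ℂ} {ε : ℝ} (hε : 0 < ε) {a b : ℂ} (ha : ‖a - z₀‖ < ε)
    (hb : ‖b - z₀‖ < ε) (h : 1 / 4 ≤ p.V (a : OnePoint ℂ) (b : OnePoint ℂ)) :
    ‖p.z - z₀‖ ≤ 5 * ε ∧ p.t ≤ 4 * ε := by
  have ht := p.t_pos
  have h1 := le_of_V h
  have h2 : ‖a - b‖ ≤ 2 * ε := by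
    have := norm_sub_le (a - z₀) (b - z₀)
    rw [sub_sub_sub_cancel_right] at this
    linarith
  have h3 : ‖a - b‖ ^ 2 ≤ (2 * ε) ^ 2 := by gcongr
  have h4 : p.t ≤ 4 * ε := by
    refine abs_le_of_sq_le_sq' (b := 4 * ε) ?_ (by positivity) |>.2
    have := sq_nonneg ‖a - p.z‖
    nlinarith
  have h5 : ‖a - p.z‖ ≤ 4 * ε := by
    refine abs_le_of_sq_le_sq' (b := 4 * ε) ?_ (by positivity) |>.2
    have := sq_nonneg p.t
    nlinarith
  refine ⟨?_, h4⟩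
  have h6 := norm_sub_le (a - z₀) (a - p.z)
  rw [sub_sub_sub_cancel_left] at h6
  linarith

theorem far_aux {p : H3} {M : ℝ} (hz : ‖p.z‖ ≤ M) (ht : p.t ≤ M) {b : ℂ}
    (h : 1 / 4 ≤ p.V ∞ (b : OnePoint ℂ)) : ‖b‖ ≤ 17 * M := by
  have ht0 := p.t_pos
  rw [V_infty, le_div_iff₀ (by positivity)] at h
  have h1 : ‖b - p.z‖ ≤ 2 * p.t := by
    refine abs_le_of_sq_le_sq' (b := 2 * p.t) ?_ (by positivity) |>.2
    nlinarith [sq_nonneg p.t]
  have h2 := norm_add_le (b - p.z) p.z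
  rw [sub_add_cancel] at h2
  linarith

theorem far_of_V {p : H3} {M : ℝ} (hz : ‖p.z‖ ≤ M) (ht : p.t ≤ M) {x y : OnePoint ℂ}
    (h : 1 / 4 ≤ p.V x y) :
    ∃ a : ℂ, ‖a‖ ≤ 17 * M ∧ (x = a ∨ y = a) := by
  have ht0 := p.t_pos
  have hM : 0 < M := ht0.trans_le ht
  induction x using OnePoint.rec with
  | infty =>
    induction y using OnePoint.rec with
    | infty =>
      rw [V_self] at h
      norm_num at h
    | coe b => exact ⟨b, far_aux hz ht h, Or.inr rfl⟩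
  | coe a =>
    induction y using OnePoint.rec with
    | infty =>
      rw [V_comm] at h
      exact ⟨a, far_aux hz ht h, Or.inl rfl⟩
    | coe b =>
      by_contra hcon
      push Not at hcon
      have ha : 17 * M < ‖a‖ := by
        by_contra h'
        exact (hcon a (not_lt.1 h')).1 rfl
      have hb : 17 * M < ‖b‖ := by
        by_contra h'
        exact (hcon b (not_lt.1 h')).2 rfl
      have h1 := mul_le_of_V h
      have h2 : ‖a‖ - M ≤ ‖a - p.z‖ := by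
        have := norm_sub_norm_le a p.z
        linarith
      have h3 : ‖b‖ - M ≤ ‖b - p.z‖ := by
        have := norm_sub_norm_le b p.z
        linarith
      have h4 : ‖a - b‖ ≤ ‖a‖ + ‖b‖ := norm_sub_le a b
      have h5 : (‖a - p.z‖ * ‖b - p.z‖) ^ 2 ≤ (2 * (‖a - b‖ * p.t)) ^ 2 := by
        calc (‖a - p.z‖ * ‖b - p.z‖) ^ 2 = ‖a - p.z‖ ^ 2 * ‖b - p.z‖ ^ 2 := by ring
          _ ≤ (‖a - p.z‖ ^ 2 + p.t ^ 2) * (‖b - p.z‖ ^ 2 + p.t ^ 2) := by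
            gcongr <;> linarith [sq_nonneg p.t]
          _ ≤ 4 * (‖a - b‖ ^ 2 * p.t ^ 2) := h1
          _ = (2 * (‖a - b‖ * p.t)) ^ 2 := by ring
      have h6 : ‖a - p.z‖ * ‖b - p.z‖ ≤ 2 * (‖a - b‖ * p.t) :=
        abs_le_of_sq_le_sq' h5 (by positivity) |>.2
      have h7 : (‖a‖ - M) * (‖b‖ - M) ≤ ‖a - p.z‖ * ‖b - p.z‖ :=
        mul_le_mul h2 h3 (by linarith) (norm_nonneg _)
      have h8 : ‖a - b‖ * p.t ≤ (‖a‖ + ‖b‖) * M := by gcongr
      have h9 : 17 * M * ‖b‖ ≤ ‖a‖ * ‖b‖ := by gcongr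
      have h10 : ‖a‖ * (17 * M) ≤ ‖a‖ * ‖b‖ := by gcongr
      nlinarith

/-- **Convergence at infinity.** -/
theorem tendsto_of_vis {p : ℕ → H3} {ζ : OnePoint ℂ}
    (h : ∀ U ∈ 𝓝 ζ, ∀ᶠ n in atTop, ∃ x ∈ U, ∃ y ∈ U, 1 / 4 ≤ (p n).V x y) :
    Tendsto (fun n => ((((p n).z, (p n).t) : ℂ × ℝ) : OnePoint (ℂ × ℝ))) atTop
      (𝓝 (ζ.map fun z => (z, (0 : ℝ)))) := by
  induction ζ using OnePoint.rec with
  | infty =>
    rw [OnePoint.map_infty]
    have h1 : Tendsto (fun n => (((p n).z, (p n).t) : ℂ × ℝ)) atTop (coclosedCompact (ℂ × ℝ)) := by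
      rw [coclosedCompact_eq_cocompact, ← cobounded_eq_cocompact,
        ← tendsto_norm_atTop_iff_cobounded, Filter.tendsto_atTop]
      intro b
      set M := max b 1 with hM
      have hM1 : 1 ≤ M := le_max_right _ _
      have hU : ((fun z : ℂ => (z : OnePoint ℂ)) '' closedBall 0 (17 * M))ᶜ ∈ 𝓝 (∞ : OnePoint ℂ) := by
        refine IsOpen.mem_nhds ?_ ?_
        · exact OnePoint.isOpen_compl_image_coe.2 ⟨isClosed_closedBall, isCompact_closedBall _ _⟩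
        · rintro ⟨z, -, hz⟩
          exact OnePoint.coe_ne_infty z hz
      filter_upwards [h _ hU] with n hn
      obtain ⟨x, hx, y, hy, hV⟩ := hn
      by_contra hlt
      rw [not_le, Prod.norm_def, max_lt_iff] at hlt
      have hz : ‖(p n).z‖ ≤ M := hlt.1.le.trans (le_max_left _ _)
      have ht : (p n).t ≤ M := (le_abs_self _).trans (hlt.2.le.trans (le_max_left _ _))
      obtain ⟨a, ha, rfl | rfl⟩ := far_of_V hz ht hV
      · exact hx ⟨a, mem_closedBall_zero_iff.2 ha, rfl⟩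
      · exact hy ⟨a, mem_closedBall_zero_iff.2 ha, rfl⟩
    exact OnePoint.tendsto_coe_infty.comp h1
  | coe z₀ =>
    rw [OnePoint.map_some]
    refine (OnePoint.continuous_coe.tendsto _).comp ?_
    rw [Metric.tendsto_atTop']
    intro ε hε
    have hε' : 0 < ε / 6 := by positivity
    have hU : ((fun z : ℂ => (z : OnePoint ℂ)) '' ball z₀ (ε / 6)) ∈ 𝓝 (z₀ : OnePoint ℂ) :=
      OnePoint.isOpenEmbedding_coe.image_mem_nhds.2 (ball_mem_nhds _ hε')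
    obtain ⟨N, hN⟩ := eventually_atTop.1 (h _ hU)
    refine ⟨N, fun n hn => ?_⟩
    obtain ⟨_, ⟨a, ha, rfl⟩, _, ⟨b, hb, rfl⟩, hV⟩ := hN n hn.le
    rw [mem_ball, dist_eq_norm] at ha hb
    obtain ⟨h1, h2⟩ := near_of_V hε' ha hb hV
    rw [dist_eq_norm, Prod.norm_def, max_lt_iff]
    have ht := (p n).t_pos
    constructor
    · change ‖(p n).z - z₀‖ < ε
      linarith
    · change ‖(p n).t - 0‖ < ε
      rw [sub_zero, Real.norm_of_nonneg ht.le]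
      linarith

end Vale.Agent.P198.H372
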