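import Vale.Agent.P198.H372.Moeb
import Vale.Agent.P198.H372.GeoV
import Vale.Agent.P198.H372.Vis

/-!
# P198: the geometric action and its extension to infinity
-/

open Metric Set Filter Topology

namespace Vale.Agent.P198.H372

open Vale.Agent.P198.H P198H

variable {G : Type} [Group G] {S : Finset G}

/-- orbits along rays converge to the point at infinity -/
theorem tendsto_ray (H : HypLen G) (hH : H.len = wlen S) {Φ : H.Bd ≃ₜ OnePoint ℂ}
    {ρ : G →* (H3 ≃ᵢ H3)}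
    (hV : ∀ g p x y, (ρ g p).V (Φ (g • Φ.symm x)) (Φ (g • Φ.symm y)) = p.V x y)
    (r : Ray S) (x : H3) :
    Tendsto (fun n => ((((ρ (r.1 n) x).z, (ρ (r.1 n) x).t) : ℂ × ℝ) : OnePoint (ℂ × ℝ))) atTop
      (𝓝 ((Φ (rayEnd H hH r)).map fun z => (z, (0 : ℝ)))) := by
  refine tendsto_of_vis (p := fun n => ρ (r.1 n) x) fun U hU => ?_
  set ξ := rayEnd H hH r with hξ
  have hU' : Φ ⁻¹' U ∈ 𝓝 ξ := Φ.continuous.continuousAt hU
  obtain ⟨ε, hε, hεU⟩ := Metric.mem_nhds_iff.1 hU'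
  set a : Fin 3 → H.Bd := fun i => Φ.symm (tri x i) with ha
  have hane : ∀ i j, i ≠ j → a i ≠ a j := fun i j hij he => tri_ne x i j hij (Φ.symm.injective he)
  set δ : ℝ := min (dist (a 0) (a 1)) (min (dist (a 0) (a 2)) (dist (a 1) (a 2))) with hδ
  have hδ0 : 0 < δ := lt_min (dist_pos.2 (hane 0 1 (by decide)))
    (lt_min (dist_pos.2 (hane 0 2 (by decide))) (dist_pos.2 (hane 1 2 (by decide))))
  have hδa : ∀ i j, i ≠ j → δ ≤ dist (a i) (a j) := by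
    have h01 : δ ≤ dist (a 0) (a 1) := min_le_left _ _
    have h02 : δ ≤ dist (a 0) (a 2) := (min_le_right _ _).trans (min_le_left _ _)
    have h12 : δ ≤ dist (a 1) (a 2) := (min_le_right _ _).trans (min_le_right _ _)
    intro i j hij
    fin_cases i <;> fin_cases j <;>
      first
        | exact absurd rfl hij
        | assumption
        | (rw [dist_comm]; assumption)
  have hs : Tendsto (fun n : ℕ => (1 + 2 / δ) * H.θ ^ n) atTop (𝓝 0) := by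
    have := (tendsto_θ_pow H).const_mul (1 + 2 / δ)
    rwa [mul_zero] at this
  filter_upwards [hs.eventually (gt_mem_nhds hε)] with n hn
  set g := r.1 n with hg
  have key : ∀ i, δ / 2 ≤ dist (a i).1 (H.ι g⁻¹) → Φ (g • a i) ∈ U := by
    intro i hi
    apply hεU
    rw [mem_ball, H.dist_val, H.smul_val]
    have e1 := H.Bd_upper' g (a i)
    have e2 : H.s g = H.θ ^ n := by rw [H.s_eq_pow, hH, hg, r.wlen_eq]
    rw [e2] at e1
    have e4 : dist (g • (a i).1) (H.ι g) * (δ / 2) ≤ H.θ ^ n :=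
      (mul_le_mul_of_nonneg_left hi dist_nonneg).trans e1
    have e3 : dist (g • (a i).1) (H.ι g) ≤ 2 / δ * H.θ ^ n := by
      rw [div_mul_eq_mul_div, le_div_iff₀ hδ0]
      linarith
    have e5 : dist (H.ι g) ξ.1 ≤ H.θ ^ n := dist_rayEnd H hH r n
    have e6 := dist_triangle (g • (a i).1) (H.ι g) ξ.1
    have e7 : (1 + 2 / δ) * H.θ ^ n = H.θ ^ n + 2 / δ * H.θ ^ n := by ring
    linarith
  have far : ∀ i j, i ≠ j → dist (a i).1 (H.ι g⁻¹) < δ / 2 → δ / 2 ≤ dist (a j).1 (H.ι g⁻¹) := by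
    intro i j hij h
    by_contra h'
    have h1 := hδa i j hij
    rw [H.dist_val] at h1
    have h2 := dist_triangle_right (a i).1 (a j).1 (H.ι g⁻¹)
    linarith
  obtain ⟨i, j, hij, hi, hj⟩ : ∃ i j, i ≠ j ∧ δ / 2 ≤ dist (a i).1 (H.ι g⁻¹) ∧
      δ / 2 ≤ dist (a j).1 (H.ι g⁻¹) := by
    by_cases h0 : dist (a 0).1 (H.ι g⁻¹) < δ / 2
    · exact ⟨1, 2, by decide, far 0 1 (by decide) h0, far 0 2 (by decide) h0⟩
    · by_cases h1 : dist (a 1).1 (H.ι g⁻¹) < δ / 2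
      · exact ⟨0, 2, by decide, not_lt.1 h0, far 1 2 (by decide) h1⟩
      · exact ⟨0, 1, by decide, not_lt.1 h0, not_lt.1 h1⟩
  refine ⟨Φ (g • a i), key i hi, Φ (g • a j), key j hj, ?_⟩
  have h1 := hV g x (tri x i) (tri x j)
  change 1 / 4 ≤ (ρ g x).V (Φ (g • Φ.symm (tri x i))) (Φ (g • Φ.symm (tri x j)))
  rw [h1]
  exact tri_ge x i j hij

/-- **The conjugation at infinity**, together with the geometric action. -/
theorem exists_conj (hS : Subgroup.closure (S : Set G) = ⊤) {δ : ℕ} (h : Thin S δ)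
    (hb : Nonempty (Bdry S ≃ₜ sphere (0 : EuclideanSpace ℝ (Fin 3)) 1)) :
    ∃ (ρ : G →* (H3 ≃ᵢ H3)) (Φ : Bdry S ≃ₜ OnePoint ℂ), Finite ρ.ker ∧
      (∀ K : Set H3, IsCompact K → {g : G | ((ρ g) '' K ∩ K).Nonempty}.Finite) ∧
      (∃ K : Set H3, IsCompact K ∧ ⋃ g : G, (ρ g) '' K = Set.univ) ∧
      (∀ (r : Ray S) (x : H3),
        Tendsto (fun n => ((((ρ (r.1 n) x).z, (ρ (r.1 n) x).t) : ℂ × ℝ) : OnePoint (ℂ × ℝ)))
          atTop (𝓝 ((Φ (Quot.mk _ r)).map fun z => (z, (0 : ℝ))))) ∧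
      ∀ g : G, ∃ A : GL (Fin 2) ℂ,
        (∀ r r' : Ray S, (∃ C : ℕ, ∀ n, ∃ m, wdist S (g * r.1 n) (r'.1 m) ≤ C) →
          Φ (Quot.mk _ r') = A • Φ (Quot.mk _ r)) ∧
        (∀ r r' : Ray S, Φ (Quot.mk _ r') = A • Φ (Quot.mk _ r) →
          ∃ C : ℕ, ∀ n, wdist S (g * r.1 n) (r'.1 n) ≤ C) ∨
        (∀ r r' : Ray S, (∃ C : ℕ, ∀ n, ∃ m, wdist S (g * r.1 n) (r'.1 m) ≤ C) →
          Φ (Quot.mk _ r') = A • (Φ (Quot.mk _ r)).map (starRingEnd ℂ)) ∧
        (∀ r r' : Ray S, Φ (Quot.mk _ r') = A • (Φ (Quot.mk _ r)).map (starRingEnd ℂ) →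
          ∃ C : ℕ, ∀ n, wdist S (g * r.1 n) (r'.1 n) ≤ C) := by
  obtain ⟨f⟩ := hb
  set H := hypLen hS h with hH
  let e : Bdry S ≃ₜ H.Bd := bdryHomeo hS H rfl
  let f' : H.Bd ≃ₜ sphere (0 : EuclideanSpace ℝ (Fin 3)) 1 := e.symm.trans f
  obtain ⟨y₁, y₂, hy⟩ := exists_ne_of_homeo f'
  let q : P198Q.QM G H.Bd := H.qm y₁ y₂ hy
  have hP : P198Q.Planar H.Bd := P198Q.planar_of_homeomorph f'
  have : Countable G := countable_of_gen hS
  have : ConnectedSpace (sphere (0 : EuclideanSpace ℝ (Fin 3)) 1) := P198GL.connectedSpace_sphere2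
  have : ConnectedSpace H.Bd := f'.symm.surjective.connectedSpace f'.symm.continuous
  obtain ⟨h', hm⟩ := absStage2 G H.Bd q hP ⟨f'⟩
  obtain ⟨ρ, h1, h2, h3⟩ := geometric_V q h' hm
  have hmk : ∀ r : Ray S, (e.trans h') (Quot.mk _ r) = h' (rayEnd H rfl r) := fun r =>
    congrArg h' (bdryHomeo_mk hS H rfl r)
  refine ⟨ρ, e.trans h', finite_ker ρ h1, h1, h2, fun r x => ?_, fun g => ?_⟩
  · have e2 := tendsto_ray H rfl h3 r x
    rw [← hmk r] at e2
    exact e2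
  obtain ⟨A, hA⟩ := hm g
  have key : ∀ r r' : Ray S, (∃ C : ℕ, ∀ n, ∃ m, wdist S (g * r.1 n) (r'.1 m) ≤ C) →
      (e.trans h') (Quot.mk _ r') =
        h' (g • h'.symm ((e.trans h') (Quot.mk _ r))) := by
    rintro r r' ⟨C, hC⟩
    rw [hmk r, hmk r', h'.symm_apply_apply, smul_rayEnd hS H rfl hC]
  have key' : ∀ r r' : Ray S, (e.trans h') (Quot.mk _ r') =
      h' (g • h'.symm ((e.trans h') (Quot.mk _ r))) →
      ∃ C : ℕ, ∀ n, wdist S (g * r.1 n) (r'.1 n) ≤ C := by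
    intro r r' hr
    rw [hmk r, hmk r', h'.symm_apply_apply] at hr
    exact bdd_of_smul_rayEnd hS H rfl (h'.injective hr).symm
  refine ⟨A, hA.imp (fun hA => ⟨fun r r' hr => ?_, fun r r' hr => ?_⟩)
    fun hA => ⟨fun r r' hr => ?_, fun r r' hr => ?_⟩⟩
  · exact (key r r' hr).trans (hA _)
  · exact key' r r' (hr.trans (hA _).symm)
  · exact (key r r' hr).trans (hA _)
  · exact key' r r' (hr.trans (hA _).symm)

end Vale.Agent.P198.H372
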