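import Vale.Agent.P198.H372.Defs
import Vale.Agent.P198.H3.Defs

/-!
# P198: definitions of the statement, actions on hyperbolic 3-space
-/

namespace Vale.Agent.P198.H372

open Metric Set Filter Topology
open P198H (H3)

variable {G : Type} [Group G]

/-- the action is proper and cocompact -/
def Geometric (ρ : G →* (H3 ≃ᵢ H3)) : Prop :=
  (∀ K : Set H3, IsCompact K → {g : G | (ρ g '' K ∩ K).Nonempty}.Finite) ∧
    ∃ K : Set H3, IsCompact K ∧ ⋃ g : G, ρ g '' K = univ

/-- for each geodesic ray `r` and each `x` the points `ρ (r n) x` of the upper half-space tend to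
the image under `Φ` of the end point of `r`, a point of `ℂ ∪ {∞}`, the boundary of the half-space -/
def Extends (Γ : SimpleGraph G) (ρ : G →* (H3 ≃ᵢ H3)) (Φ : Boundary Γ 1 ≃ₜ OnePoint ℂ) : Prop :=
  ∀ (r : GeodesicRay Γ 1) (x : H3),
    Tendsto (fun n => (((ρ (r.1 n) x).z, (ρ (r.1 n) x).t) : OnePoint (ℂ × ℝ))) atTop
      (𝓝 ((Φ r.limit).map fun z => (z, (0 : ℝ))))

/-- `Φ` conjugates the action of each `g` on the boundary (`g r` is asymptotic to `r'` if and only
if `g` maps the end point of `r` to the end point of `r'`) to a Moebius map or to the composition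
of a Moebius map and the complex conjugation -/
def ConjugatesToMoebius (Γ : SimpleGraph G) (Φ : Boundary Γ 1 ≃ₜ OnePoint ℂ) : Prop :=
  ∀ g : G, ∃ A : GL (Fin 2) ℂ,
    (∀ r r' : GeodesicRay Γ 1, Asymptotic Γ (fun n => g * r.1 n) r'.1 ↔
      Φ r'.limit = A • Φ r.limit) ∨
    (∀ r r' : GeodesicRay Γ 1, Asymptotic Γ (fun n => g * r.1 n) r'.1 ↔
      Φ r'.limit = A • (Φ r.limit).map (starRingEnd ℂ))

/-- each orbit map is a quasi-isometry from the vertices of the graph to `H3` -/
def QuasiIsometric (Γ : SimpleGraph G) (ρ : G →* (H3 ≃ᵢ H3)) : Prop :=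
  ∀ x : H3, ∃ L : ℝ,
    (∀ g h : G, (Γ.dist g h : ℝ) ≤ L * dist (ρ g x) (ρ h x) + L ∧
      dist (ρ g x) (ρ h x) ≤ L * Γ.dist g h + L) ∧
    ∀ y : H3, ∃ g : G, dist y (ρ g x) ≤ L

/-- closed hyperbolic 3-manifolds: compact, connected, locally isometric to `H3` -/
def ClosedHyperbolic (M : Type) [MetricSpace M] : Prop :=
  CompactSpace M ∧ ConnectedSpace M ∧
    ∀ m : M, ∃ r > 0, ∃ x : H3, Nonempty (ball m r ≃ᵢ ball x r)

end Vale.Agent.P198.H372
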