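import Vale.Agent.P198.H372.QI
import Vale.Agent.P198.H372.Conj
import Vale.Agent.P198.H372.Defs3

/-!
# P198: the theorem for the Cayley graph
-/

namespace Vale.Agent.P198.H372

open Metric Set Filter Topology SimpleGraph
open P198H (H3)

theorem final (G : Type) [Group G] (S : Finset G) (hS : Subgroup.closure (S : Set G) = ⊤)
    (δ : ℝ) (hδ : ThinTriangles (mulCayley (S : Set G)) δ)
    (hb : Nonempty
      (Boundary (mulCayley (S : Set G)) 1 ≃ₜ sphere (0 : EuclideanSpace ℝ (Fin 3)) 1)) :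
    ∃ ρ : G →* (H3 ≃ᵢ H3), (Finite ρ.ker ∧ Geometric ρ) ∧
      (∃ Φ : Boundary (mulCayley (S : Set G)) 1 ≃ₜ OnePoint ℂ,
        Extends (mulCayley (S : Set G)) ρ Φ ∧ ConjugatesToMoebius (mulCayley (S : Set G)) Φ) ∧
      QuasiIsometric (mulCayley (S : Set G)) ρ ∧
      ((∀ (g : G) (n : ℕ), 0 < n → g ^ n = 1 → g = 1) →
        ∃ (M : Type) (_ : MetricSpace M), ClosedHyperbolic M ∧
          (∀ m : M, Nonempty (FundamentalGroup M m ≃* G)) ∧
          ∃ π : H3 → M, IsCoveringMap π ∧ ∀ x y : H3, π x = π y ↔ ∃ g : G, ρ g x = y) := by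
  obtain ⟨f⟩ := hb
  obtain ⟨ρ, Φ, h1, h2, h3, h4, h5⟩ := exists_conj hS (thin_of hS hδ) ⟨(bdry hS).symm.trans f⟩
  refine ⟨ρ, ⟨h1, h2, h3⟩, ⟨(bdry hS).trans Φ, fun r x => h4 (toRay hS r) x, fun g => ?_⟩,
    fun x => exists_qi hS h2 h3 x, fun ht => ?_⟩
  · obtain ⟨A, hA⟩ := h5 g
    have key : ∀ r r' : GeodesicRay (mulCayley (S : Set G)) 1,
        Asymptotic (mulCayley (S : Set G)) (fun n => g * r.1 n) r'.1 →
        ∃ C : ℕ, ∀ n, ∃ m, Vale.Agent.P198.H.wdist S (g * (toRay hS r).1 n)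
          ((toRay hS r').1 m) ≤ C := by
      rintro r r' ⟨C, hC, -⟩
      refine ⟨C, fun n => ?_⟩
      obtain ⟨m, hm⟩ := hC n
      exact ⟨m, by rw [← dist_eq hS]; exact hm⟩
    have key' : ∀ r r' : GeodesicRay (mulCayley (S : Set G)) 1,
        (∃ C : ℕ, ∀ n, Vale.Agent.P198.H.wdist S (g * (toRay hS r).1 n)
          ((toRay hS r').1 n) ≤ C) →
        Asymptotic (mulCayley (S : Set G)) (fun n => g * r.1 n) r'.1 := by
      rintro r r' ⟨C, hC⟩
      refine ⟨C, fun n => ⟨n, ?_⟩, fun n => ⟨n, ?_⟩⟩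
      · rw [dist_eq hS]; exact hC n
      · rw [dist_eq hS, Vale.Agent.P198.H.wdist_comm]; exact hC n
    exact ⟨A, hA.imp
      (fun hA r r' => ⟨fun hr => hA.1 (toRay hS r) (toRay hS r') (key r r' hr),
        fun hr => key' r r' (hA.2 (toRay hS r) (toRay hS r') hr)⟩)
      fun hA r r' => ⟨fun hr => hA.1 (toRay hS r) (toRay hS r') (key r r' hr),
        fun hr => key' r r' (hA.2 (toRay hS r) (toRay hS r') hr)⟩⟩
  · obtain ⟨M, _, m1, m2, m3, m4, m5⟩ := exists_manifold ρ h2 h3 ht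
    exact ⟨M, inferInstance, ⟨m1, m2, m3⟩, m4, m5⟩

end Vale.Agent.P198.H372
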