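import Vale.Agent.P198.H372.Defs
import Vale.Agent.P198.H.Word

/-!
# P198: the Cayley graph of Mathlib and the word distance
-/

namespace Vale.Agent.P198.H372

open Set Topology SimpleGraph Vale.Agent.P198.H

variable {G : Type} [Group G] {S : Finset G}

theorem exists_walk (l : List G) (hl : ∀ x ∈ l, x ∈ S ∨ x⁻¹ ∈ S) (g : G) :
    ∃ p : (mulCayley (S : Set G)).Walk g (g * l.prod), p.length ≤ l.length := by
  induction l generalizing g with
  | nil =>
    refine ⟨(Walk.nil : (mulCayley (S : Set G)).Walk g g).copy rfl (by simp), ?_⟩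
    rw [Walk.length_copy, Walk.length_nil]
    exact Nat.zero_le _
  | cons x l ih =>
    have hx := hl x (by simp)
    obtain ⟨p, hp⟩ := ih (fun y hy => hl y (by simp [hy])) (g * x)
    by_cases h1 : x = 1
    · subst h1
      refine ⟨p.copy (by simp) (by simp), ?_⟩
      rw [Walk.length_copy, List.length_cons]
      omega
    · have hadj : (mulCayley (S : Set G)).Adj g (g * x) := by
        rw [mulCayley_adj']
        refine ⟨fun h => h1 (by simpa using h.symm), ?_⟩
        rcases hx with hx | hx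
        · exact ⟨x, hx, Or.inl rfl⟩
        · exact ⟨x⁻¹, hx, Or.inr (by simp)⟩
      refine ⟨(Walk.cons hadj p).copy rfl (by rw [List.prod_cons, mul_assoc]), ?_⟩
      rw [Walk.length_copy, Walk.length_cons, List.length_cons]
      omega

theorem exists_list {g h : G} (p : (mulCayley (S : Set G)).Walk g h) :
    ∃ l : List G, l.length = p.length ∧ (∀ x ∈ l, x ∈ S ∨ x⁻¹ ∈ S) ∧ l.prod = g⁻¹ * h := by
  induction p with
  | nil => exact ⟨[], rfl, by simp, by simp⟩
  | @cons u v w hadj p ih =>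
    obtain ⟨l, h1, h2, h3⟩ := ih
    refine ⟨(u⁻¹ * v) :: l, by simp [h1], ?_, ?_⟩
    · intro x hx
      rcases List.mem_cons.1 hx with rfl | hx
      · rw [mulCayley_adj'] at hadj
        obtain ⟨-, s, hs, hs' | hs'⟩ := hadj
        · left
          rw [← hs', inv_mul_cancel_left]
          exact hs
        · right
          rw [hs', mul_inv_rev, inv_inv]
          simpa using hs
      · exact h2 x hx
    · rw [List.prod_cons, h3]
      group

theorem preconnected (hS : Subgroup.closure (S : Set G) = ⊤) :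
    (mulCayley (S : Set G)).Preconnected := by
  intro g h
  obtain ⟨l, -, h2, h3⟩ := exists_word hS (g⁻¹ * h)
  obtain ⟨p, -⟩ := exists_walk l h2 g
  rw [h3, mul_inv_cancel_left] at p
  exact ⟨p⟩

theorem dist_eq (hS : Subgroup.closure (S : Set G) = ⊤) (g h : G) :
    (mulCayley (S : Set G)).dist g h = wdist S g h := by
  apply le_antisymm
  · obtain ⟨l, h1, h2, h3⟩ := exists_word hS (g⁻¹ * h)
    obtain ⟨p, hp⟩ := exists_walk l h2 g
    have h4 : g * l.prod = h := by rw [h3, mul_inv_cancel_left]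
    have h5 := (SimpleGraph.dist_le p).trans hp
    rw [h4] at h5
    rw [wdist, ← h1]
    exact h5
  · obtain ⟨p, hp⟩ := (preconnected hS g h).exists_walk_length_eq_dist
    obtain ⟨l, h1, h2, h3⟩ := exists_list p
    rw [wdist, ← h3, ← hp, ← h1]
    exact wlen_le h2

/-- the walk through the vertices of a sequence of neighbours -/
theorem exists_walk_of_seq {V : Type} {Γ : SimpleGraph V} (a : ℕ → V) (n : ℕ)
    (h : ∀ i < n, Γ.Adj (a i) (a (i + 1))) :
    ∃ p : Γ.Walk (a 0) (a n), p.length = n ∧ ∀ v, v ∈ p.support ↔ ∃ i ≤ n, v = a i := by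
  induction n with
  | zero =>
    refine ⟨Walk.nil, rfl, fun v => ?_⟩
    rw [Walk.support_nil, List.mem_singleton]
    constructor
    · rintro rfl; exact ⟨0, le_rfl, rfl⟩
    · rintro ⟨i, hi, rfl⟩
      rw [Nat.le_zero.1 hi]
  | succ n ih =>
    obtain ⟨p, h1, h2⟩ := ih fun i hi => h i (by omega)
    refine ⟨p.concat (h n (by omega)), by rw [Walk.length_concat, h1], fun v => ?_⟩
    rw [Walk.support_concat, List.mem_append, List.mem_singleton, h2]
    constructor
    · rintro (⟨i, hi, rfl⟩ | rfl)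
      · exact ⟨i, by omega, rfl⟩
      · exact ⟨n + 1, le_rfl, rfl⟩
    · rintro ⟨i, hi, rfl⟩
      rcases Nat.lt_or_ge n i with hlt | hge
      · right
        rw [show i = n + 1 by omega]
      · exact Or.inl ⟨i, hge, rfl⟩

theorem walk_of_geod (hS : Subgroup.closure (S : Set G) = ⊤) {x y : G} {a : ℕ → G} {n : ℕ}
    (h : IsGeod S x y a n) :
    ∃ p : (mulCayley (S : Set G)).Walk x y, p.length = (mulCayley (S : Set G)).dist x y ∧
      ∀ v, v ∈ p.support ↔ ∃ i ≤ n, v = a i := by
  obtain ⟨h0, hn, hg⟩ := h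
  obtain ⟨p, h1, h2⟩ := exists_walk_of_seq (Γ := mulCayley (S : Set G)) a n (fun i hi => by
    rw [← SimpleGraph.dist_eq_one_iff_adj, dist_eq hS, hg i (i + 1) (by omega) (by omega)]
    omega)
  subst h0 hn
  refine ⟨p, ?_, h2⟩
  rw [h1, dist_eq hS, hg 0 n (Nat.zero_le _) le_rfl, Nat.sub_zero]

theorem thin_of (hS : Subgroup.closure (S : Set G) = ⊤) {δ : ℝ}
    (h : ThinTriangles (mulCayley (S : Set G)) δ) : Thin S ⌊δ⌋₊ := by
  intro x y z a b c l m n ha hb hc i hi
  obtain ⟨p, hp, hp'⟩ := walk_of_geod hS ha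
  obtain ⟨q, hq, hq'⟩ := walk_of_geod hS hb
  obtain ⟨r, hr, hr'⟩ := walk_of_geod hS hc
  obtain ⟨w, hw, hd⟩ := h x y z p q r hp hq hr (a i) ((hp' _).2 ⟨i, hi, rfl⟩)
  rw [dist_eq hS] at hd
  replace hd := Nat.le_floor hd
  rcases hw with hw | hw
  · obtain ⟨j, hj, rfl⟩ := (hq' w).1 hw
    exact Or.inl ⟨j, hj, hd⟩
  · obtain ⟨j, hj, rfl⟩ := (hr' w).1 hw
    exact Or.inr ⟨j, hj, hd⟩

/-- rays of the Cayley graph -/
def toRay (hS : Subgroup.closure (S : Set G) = ⊤) (r : GeodesicRay (mulCayley (S : Set G)) 1) :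
    Ray S :=
  ⟨r.1, r.2.1, fun i j hij => by rw [← dist_eq hS]; exact r.2.2 i j hij⟩

/-- rays of the Cayley graph -/
def ofRay (hS : Subgroup.closure (S : Set G) = ⊤) (r : Ray S) :
    GeodesicRay (mulCayley (S : Set G)) 1 :=
  ⟨r.1, r.2.1, fun i j hij => by rw [dist_eq hS]; exact r.2.2 i j hij⟩

theorem asymptotic_iff (hS : Subgroup.closure (S : Set G) = ⊤) (r r' : Ray S) :
    Asymptotic (mulCayley (S : Set G)) r.1 r'.1 ↔ ∃ C : ℕ, ∀ n, wdist S (r.1 n) (r'.1 n) ≤ C := by
  have hr : ∀ (r : Ray S) n, wdist S 1 (r.1 n) = n := fun r n => by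
    have := r.2.2 0 n (Nat.zero_le _)
    rw [r.2.1, Nat.sub_zero] at this
    exact this
  constructor
  · rintro ⟨C, h1, -⟩
    refine ⟨2 * C, fun n => ?_⟩
    obtain ⟨m, hm⟩ := h1 n
    rw [dist_eq hS] at hm
    have t1 := wdist_triangle hS 1 (r.1 n) (r'.1 m)
    have t2 := wdist_triangle hS 1 (r'.1 m) (r.1 n)
    have t3 := wdist_triangle hS (r.1 n) (r'.1 m) (r'.1 n)
    rw [hr, hr] at t1 t2
    rw [wdist_comm (r'.1 m)] at t2
    have t4 : wdist S (r'.1 m) (r'.1 n) ≤ C := by
      rcases le_total m n with hmn | hmn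
      · rw [r'.2.2 m n hmn]; omega
      · rw [wdist_comm, r'.2.2 n m hmn]; omega
    omega
  · rintro ⟨C, h⟩
    refine ⟨C, fun n => ⟨n, ?_⟩, fun n => ⟨n, ?_⟩⟩
    · rw [dist_eq hS]; exact h n
    · rw [dist_eq hS, wdist_comm]; exact h n

theorem continuous_toRay (hS : Subgroup.closure (S : Set G) = ⊤) : Continuous (toRay hS) := by
  refine continuous_iInf_rng.2 fun n => ?_
  rw [continuous_induced_rng]
  have h : Continuous[TopologicalSpace.induced
      (fun r : GeodesicRay (mulCayley (S : Set G)) 1 => r.1 n) ⊥, ⊥]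
      (fun r : GeodesicRay (mulCayley (S : Set G)) 1 => r.1 n) := continuous_induced_dom
  exact continuous_iInf_dom (i := n) h

theorem continuous_ofRay (hS : Subgroup.closure (S : Set G) = ⊤) : Continuous (ofRay hS) := by
  refine continuous_iInf_rng.2 fun n => ?_
  rw [continuous_induced_rng]
  have h : Continuous[TopologicalSpace.induced (fun r : Ray S => r.1 n) ⊥, ⊥]
      (fun r : Ray S => r.1 n) := continuous_induced_dom
  exact continuous_iInf_dom (i := n) h

/-- the boundary of the Cayley graph is the boundary used in the proof -/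
def bdry (hS : Subgroup.closure (S : Set G) = ⊤) :
    Boundary (mulCayley (S : Set G)) 1 ≃ₜ Bdry S where
  toFun := Quot.map (toRay hS) fun r r' h => (asymptotic_iff hS (toRay hS r) (toRay hS r')).1 h
  invFun := Quot.map (ofRay hS) fun r r' h => (asymptotic_iff hS r r').2 h
  left_inv := by rintro ⟨r⟩; rfl
  right_inv := by rintro ⟨r⟩; rfl
  continuous_toFun := continuous_quot_lift _ (continuous_quot_mk.comp (continuous_toRay hS))
  continuous_invFun := continuous_quot_lift _ (continuous_quot_mk.comp (continuous_ofRay hS))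

theorem bdry_limit (hS : Subgroup.closure (S : Set G) = ⊤)
    (r : GeodesicRay (mulCayley (S : Set G)) 1) : bdry hS r.limit = Quot.mk _ (toRay hS r) := rfl

end Vale.Agent.P198.H372
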