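import Vale.Agent.P198.H372.CN
import Vale.Agent.P172.Defs

/-!
# P172 / P198: hyperbolic 3-space is a CAT(0) space
-/

namespace Vale.Agent.P198.H372

open Real P198H P198H.H3 Set Vale.Agent.P172

/-- hyperbolic 3-space is a geodesic space, in the form of P172 -/
theorem exists_isGeodesic (x y : H3) : ∃ γ : ℝ → H3, IsGeodesic γ x y := exists_geodesic x y

theorem IsGeodesic.left {X : Type*} [MetricSpace X] {γ : ℝ → X} {x y : X} (h : IsGeodesic γ x y)
    {s : ℝ} (hs : s ∈ Icc 0 (dist x y)) : dist x (γ s) = s := by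
  have h1 := h.2.2 0 ⟨le_rfl, dist_nonneg⟩ s hs
  rw [h.1, zero_sub, abs_neg, abs_of_nonneg hs.1] at h1
  exact h1

theorem IsGeodesic.right {X : Type*} [MetricSpace X] {γ : ℝ → X} {x y : X} (h : IsGeodesic γ x y)
    {s : ℝ} (hs : s ∈ Icc 0 (dist x y)) : dist (γ s) y = dist x y - s := by
  have h1 := h.2.2 s hs (dist x y) ⟨dist_nonneg, le_rfl⟩
  rw [h.2.1, abs_sub_comm, abs_of_nonneg (by linarith [hs.2])] at h1
  exact h1

/-- a continuous function on `[0, a]` that is midpoint convex is below its chord -/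
theorem le_chord {a : ℝ} (ha : 0 < a) {g : ℝ → ℝ} (hg : ContinuousOn g (Icc 0 a))
    (hm : ∀ u ∈ Icc 0 a, ∀ v ∈ Icc 0 a, g ((u + v) / 2) ≤ (g u + g v) / 2) {s : ℝ}
    (hs : s ∈ Icc 0 a) : a * g s ≤ (a - s) * g 0 + s * g a := by
  by_contra hcon
  push Not at hcon
  -- subtract the chord
  set h : ℝ → ℝ := fun s => a * g s - ((a - s) * g 0 + s * g a) with hh
  have hcont : ContinuousOn h (Icc 0 a) := by
    refine (continuousOn_const.mul hg).sub (Continuous.continuousOn ?_)
    fun_prop
  have hmid : ∀ u ∈ Icc 0 a, ∀ v ∈ Icc 0 a, h ((u + v) / 2) ≤ (h u + h v) / 2 := by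
    intro u hu v hv
    have h1 := mul_le_mul_of_nonneg_left (hm u hu v hv) ha.le
    simp only [hh]
    linarith
  have h0 : h 0 = 0 := by simp only [hh]; ring
  have h1 : h a = 0 := by simp only [hh]; ring
  obtain ⟨x, hx, hmax⟩ := isCompact_Icc.exists_isMaxOn (nonempty_Icc.2 ha.le) hcont
  have hM : 0 < h x := lt_of_lt_of_le (by simp only [hh]; linarith) (hmax hs)
  -- the smallest point where the maximum is attained
  have hcl : IsCompact {y ∈ Icc 0 a | h y = h x} := by
    have : {y ∈ Icc 0 a | h y = h x} = Icc 0 a ∩ h ⁻¹' {h x} := rfl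
    rw [this]
    exact isCompact_Icc.of_isClosed_subset
      (hcont.preimage_isClosed_of_isClosed isClosed_Icc isClosed_singleton) inter_subset_left
  obtain ⟨y, ⟨hy, hyx⟩, hmin⟩ := hcl.exists_isLeast ⟨x, hx, rfl⟩
  have hy0 : 0 < y := by
    rcases hy.1.eq_or_lt with h | h
    · rw [← h, h0] at hyx; linarith
    · exact h
  have hya : y < a := by
    rcases hy.2.eq_or_lt with h | h
    · rw [h, h1] at hyx; linarith
    · exact h
  set r := min y (a - y) with hr
  have hr0 : 0 < r := lt_min hy0 (by linarith)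
  have hr1 : r ≤ y := min_le_left _ _
  have hr2 : r ≤ a - y := min_le_right _ _
  have hu : y - r ∈ Icc 0 a := ⟨by linarith, by linarith⟩
  have hv : y + r ∈ Icc 0 a := ⟨by linarith, by linarith⟩
  have h2 := hmid _ hu _ hv
  have h3 : (y - r + (y + r)) / 2 = y := by ring
  rw [h3] at h2
  have h4 : h (y - r) < h x := by
    refine lt_of_le_of_ne (hmax hu) fun he => ?_
    have := hmin ⟨hu, he⟩
    linarith
  have h5 : h (y + r) ≤ h x := hmax hv
  linarith

theorem continuousOn_geod {X : Type*} [MetricSpace X] {γ : ℝ → X} {x y : X}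
    (h : IsGeodesic γ x y) : ContinuousOn γ (Icc 0 (dist x y)) := by
  rw [Metric.continuousOn_iff]
  intro s hs ε hε
  exact ⟨ε, hε, fun t ht hd => by rw [h.2.2 t ht s hs]; exact hd⟩

/-- the Euclidean Stewart inequality in hyperbolic 3-space -/
theorem stewart_le {γ : ℝ → H3} {x y : H3} (h : IsGeodesic γ x y) (q : H3) {s : ℝ}
    (hs : s ∈ Icc (0 : ℝ) 1) :
    dist (γ (s * dist x y)) q ^ 2 ≤
      (1 - s) * dist x q ^ 2 + s * dist y q ^ 2 - s * (1 - s) * dist x y ^ 2 := by
  rcases (dist_nonneg (x := x) (y := y)).eq_or_lt with h0 | h0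
  · have hxy : x = y := dist_eq_zero.1 h0.symm
    rw [← h0, mul_zero, h.1, ← hxy]
    have e : (1 - s) * dist x q ^ 2 + s * dist x q ^ 2 - s * (1 - s) * 0 ^ 2 = dist x q ^ 2 := by
      ring
    rw [e]
  set a := dist x y with ha
  have hsa : s * a ∈ Icc 0 a := ⟨by have := hs.1; positivity, by nlinarith [hs.2]⟩
  have key := le_chord h0 (g := fun u => dist (γ u) q ^ 2 - u ^ 2) ?_ ?_ hsa
  · have e1 : γ 0 = x := h.1
    have e2 : γ a = y := h.2.1
    rw [e1, e2] at key
    have e3 : a * (dist (γ (s * a)) q ^ 2) ≤ a * ((1 - s) * dist x q ^ 2 + s * dist y q ^ 2 -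
        s * (1 - s) * a ^ 2) := by nlinarith
    exact le_of_mul_le_mul_left e3 h0
  · refine ContinuousOn.sub ?_ (by fun_prop)
    exact (continuous_dist.comp_continuousOn
      ((continuousOn_geod h).prodMk continuousOn_const)).pow 2
  · intro u hu v hv
    have hw : (u + v) / 2 ∈ Icc 0 a := ⟨by linarith [hu.1, hv.1], by linarith [hu.2, hv.2]⟩
    have d1 := h.2.2 u hu v hv
    have d2 := h.2.2 u hu _ hw
    have d3 := h.2.2 _ hw v hv
    have d4 : |u - (u + v) / 2| = |u - v| / 2 := by
      rw [show u - (u + v) / 2 = (u - v) / 2 by ring, abs_div, abs_two]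
    have d5 : |(u + v) / 2 - v| = |u - v| / 2 := by
      rw [show (u + v) / 2 - v = (u - v) / 2 by ring, abs_div, abs_two]
    rw [d4, ← d1] at d2
    rw [d5, ← d1] at d3
    have d6 := cn d2 d3 q
    rw [d1, sq_abs] at d6
    nlinarith

theorem dist_lineMap_sq (x y z : EuclideanSpace ℝ (Fin 2)) (s : ℝ) :
    dist (AffineMap.lineMap x y s) z ^ 2 =
      (1 - s) * dist x z ^ 2 + s * dist y z ^ 2 - s * (1 - s) * dist x y ^ 2 := by
  have e1 : AffineMap.lineMap x y s - z = (1 - s) • (x - z) + s • (y - z) := by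
    rw [AffineMap.lineMap_apply_module]
    module
  have e2 : x - y = (x - z) - (y - z) := by abel
  rw [dist_eq_norm, dist_eq_norm, dist_eq_norm, dist_eq_norm, e1, e2]
  generalize x - z = u
  generalize y - z = v
  rw [norm_add_sq_real, norm_sub_sq_real, norm_smul, norm_smul, inner_smul_left, inner_smul_right,
    mul_pow, mul_pow, Real.norm_eq_abs, Real.norm_eq_abs, sq_abs, sq_abs]
  simp only [conj_trivial]
  ring

/-- **Hyperbolic 3-space is a CAT(0) space.** -/
theorem isCAT0_H3 : IsCAT0 H3 where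
  geod := exists_isGeodesic
  comp := by
    intro x y z α β hα hβ x' y' z' hxy hxz hyz s hs t ht
    set p := α (s * dist x y) with hp
    set q := β (t * dist x z) with hq
    have h1 := stewart_le hα q hs
    have h2 := stewart_le hβ y ht
    have h3 := dist_lineMap_sq x' y' (AffineMap.lineMap x' z' t) s
    have h4 := dist_lineMap_sq x' z' y' t
    have htx : t * dist x z ∈ Icc 0 (dist x z) :=
      ⟨mul_nonneg ht.1 dist_nonneg, by nlinarith [ht.2, dist_nonneg (x := x) (y := z)]⟩
    have h5 : dist x q = t * dist x z := IsGeodesic.left hβ htx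
    have h6 : dist x' (AffineMap.lineMap x' z' t) = t * dist x z := by
      rw [dist_comm, dist_lineMap_left, Real.norm_of_nonneg ht.1, hxz]
    rw [← hp] at h1
    rw [← hq, dist_comm q y, dist_comm z y, dist_comm x y] at h2
    rw [dist_comm _ y', dist_comm z' y', dist_comm x' y'] at h4
    rw [h5] at h1
    rw [h6, hxy, h4, dist_comm y' x', hxy, hyz, hxz] at h3
    have h7 : dist p q ^ 2 ≤
        dist (AffineMap.lineMap x' y' s) (AffineMap.lineMap x' z' t) ^ 2 := by
      rw [h3]
      refine h1.trans ?_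
      have h8 := mul_le_mul_of_nonneg_left h2 hs.1
      rw [dist_comm y x] at h8
      linarith
    exact abs_le_of_sq_le_sq' h7 dist_nonneg |>.2

end Vale.Agent.P198.H372
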