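import Vale.Agent.P198.H372.CAT
import Vale.Agent.P172.H372.Defs

/-!
# P172 / P198: hyperbolic 3-space is a CAT(-1) space
-/

namespace Vale.Agent.P198.H372

open Real P198H P198H.H3 Set Vale.Agent.P172 Vale.Agent.P172.H372

/-- the hyperbolic plane in hyperbolic 3-space -/
noncomputable def emb (w : UpperHalfPlane) : H3 := ⟨(w.re : ℂ), w.im, w.im_pos⟩

theorem dist_emb (v w : UpperHalfPlane) : dist (emb v) (emb w) = dist v w := by
  refine eq_of_cosh dist_nonneg dist_nonneg ?_
  rw [cosh_dist, UpperHalfPlane.cosh_dist]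
  have e1 : ‖(emb v).z - (emb w).z‖ ^ 2 = (v.re - w.re) ^ 2 := by
    change ‖((v.re : ℝ) : ℂ) - ((w.re : ℝ) : ℂ)‖ ^ 2 = _
    rw [← Complex.ofReal_sub, Complex.norm_real, Real.norm_eq_abs, sq_abs]
  have e2 : dist (v : ℂ) (w : ℂ) ^ 2 = (v.re - w.re) ^ 2 + (v.im - w.im) ^ 2 := by
    rw [Complex.dist_eq, ← Complex.normSq_eq_norm_sq, Complex.normSq_apply, Complex.sub_re,
      Complex.sub_im]
    simp only [UpperHalfPlane.coe_re, UpperHalfPlane.coe_im]
    ring
  rw [e1, e2]
  rfl

/-- distances in a triangle are determined by the lengths of the sides -/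
theorem dist_eq_dist {x y z p q x' y' z' p' q' : H3} {s t : ℝ}
    (hs : s ∈ Icc 0 (dist x y)) (ht : t ∈ Icc 0 (dist x z))
    (h1 : dist x p = s) (h2 : dist p y = dist x y - s) (h3 : dist x q = t)
    (h4 : dist q z = dist x z - t)
    (h1' : dist x' p' = s) (h2' : dist p' y' = dist x' y' - s) (h3' : dist x' q' = t)
    (h4' : dist q' z' = dist x' z' - t)
    (hxy : dist x' y' = dist x y) (hxz : dist x' z' = dist x z) (hyz : dist y' z' = dist y z) :
    dist p q = dist p' q' := by
  rcases (dist_nonneg (x := x) (y := y)).eq_or_lt with ha | ha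
  · have hs0 : s = 0 := le_antisymm (by rw [ha]; exact hs.2) hs.1
    have e1 : x = p := dist_eq_zero.1 (by rw [h1, hs0])
    have e2 : x' = p' := dist_eq_zero.1 (by rw [h1', hs0])
    rw [← e1, ← e2, h3, h3']
  rcases (dist_nonneg (x := x) (y := z)).eq_or_lt with hb | hb
  · have ht0 : t = 0 := le_antisymm (by rw [hb]; exact ht.2) ht.1
    have e1 : x = q := dist_eq_zero.1 (by rw [h3, ht0])
    have e2 : x' = q' := dist_eq_zero.1 (by rw [h3', ht0])
    rw [← e1, ← e2, dist_comm p, dist_comm p', h1, h1']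
  refine eq_of_cosh dist_nonneg dist_nonneg ?_
  have k1 := stewart h1 h2 q
  have k2 := stewart h3 h4 y
  have k1' := stewart h1' h2' q'
  have k2' := stewart h3' h4' y'
  rw [hxy, h3'] at k1'
  rw [hxz, dist_comm z' y', hyz, hxy] at k2'
  rw [h3] at k1
  rw [dist_comm z y] at k2
  have hA : 0 < sinh (dist x y) := sinh_pos_iff.2 ha
  have hB : 0 < sinh (dist x z) := sinh_pos_iff.2 hb
  have k3 : cosh (dist q y) = cosh (dist q' y') :=
    mul_left_cancel₀ hB.ne' (k2.trans k2'.symm)
  rw [dist_comm y q] at k1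
  rw [dist_comm y' q', ← k3] at k1'
  exact mul_left_cancel₀ hA.ne' (k1.trans k1'.symm)

/-- **Hyperbolic 3-space is a CAT(-1) space.** -/
theorem isCATNegOne_H3 : IsCATNegOne H3 where
  geod := exists_isGeodesic
  comp := by
    intro x y z α β hα hβ x' y' z' α' β' hα' hβ' hxy hxz hyz s hs t ht
    have hs' : s ∈ Icc 0 (dist x' y') := by rw [hxy]; exact hs
    have ht' : t ∈ Icc 0 (dist x' z') := by rw [hxz]; exact ht
    refine le_of_eq ?_
    rw [← dist_emb]
    refine dist_eq_dist (x := x) (y := y) (z := z) (x' := emb x') (y' := emb y') (z' := emb z')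
      hs ht (IsGeodesic.left hα hs) (IsGeodesic.right hα hs) (IsGeodesic.left hβ ht)
      (IsGeodesic.right hβ ht) ?_ ?_ ?_ ?_ ?_ ?_ ?_
    · rw [dist_emb]; exact IsGeodesic.left hα' hs'
    · rw [dist_emb, dist_emb]; exact IsGeodesic.right hα' hs'
    · rw [dist_emb]; exact IsGeodesic.left hβ' ht'
    · rw [dist_emb, dist_emb]; exact IsGeodesic.right hβ' ht'
    · rw [dist_emb]; exact hxy
    · rw [dist_emb]; exact hxz
    · rw [dist_emb]; exact hyz

end Vale.Agent.P198.H372
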