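import Vale.Agent.P198.H372.Stewart

/-!
# P172 / P198: the CN inequality in hyperbolic 3-space
-/

namespace Vale.Agent.P198.H372

open Real P198H P198H.H3 Set

theorem hasDerivAt_psi {x : ℝ} (hx : 0 < x) :
    HasDerivAt (fun x : ℝ => log (cosh (√x)))
      (sinh (√x) * (1 / (2 * √x)) / cosh (√x)) x :=
  ((Real.hasDerivAt_sqrt hx.ne').cosh).log (cosh_pos _).ne'

theorem antitone_tanh_div :
    AntitoneOn (fun u : ℝ => sinh u / (cosh u * u)) (Ioi 0) := by
  have hd : ∀ u ∈ Ioi (0 : ℝ), HasDerivAt (fun u : ℝ => sinh u / (cosh u * u))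
      ((cosh u * (cosh u * u) - sinh u * (sinh u * u + cosh u * 1)) / (cosh u * u) ^ 2) u := by
    intro u hu
    have h1 : cosh u * u ≠ 0 := (mul_pos (cosh_pos u) hu).ne'
    exact (Real.hasDerivAt_sinh u).div ((Real.hasDerivAt_cosh u).mul (hasDerivAt_id u)) h1
  refine antitoneOn_of_deriv_nonpos (convex_Ioi 0)
    (fun u hu => (hd u hu).continuousAt.continuousWithinAt)
    (fun u hu => ?_) (fun u hu => ?_)
  · rw [interior_Ioi] at hu
    exact (hd u hu).differentiableAt.differentiableWithinAt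
  · rw [interior_Ioi] at hu
    rw [(hd u hu).deriv]
    have h1 : cosh u * (cosh u * u) - sinh u * (sinh u * u + cosh u * 1) = u - sinh u * cosh u := by
      linear_combination u * cosh_sq u
    rw [h1]
    have h2 : u ≤ sinh u := self_le_sinh_iff.2 (le_of_lt hu)
    have h3 := one_le_cosh u
    have h4 : 0 ≤ sinh u := sinh_nonneg_iff.2 (le_of_lt hu)
    refine div_nonpos_of_nonpos_of_nonneg ?_ (sq_nonneg _)
    nlinarith

theorem concave_psi : ConcaveOn ℝ (Ici 0) (fun x : ℝ => log (cosh (√x))) := by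
  refine AntitoneOn.concaveOn_of_deriv (convex_Ici 0) ?_ ?_ ?_
  · refine ContinuousOn.log ?_ fun x _ => (cosh_pos _).ne'
    exact (Real.continuous_cosh.comp Real.continuous_sqrt).continuousOn
  · rw [interior_Ici]
    exact fun x hx => (hasDerivAt_psi hx).differentiableAt.differentiableWithinAt
  · rw [interior_Ici]
    intro x hx y hy hxy
    rw [(hasDerivAt_psi hx).deriv, (hasDerivAt_psi hy).deriv]
    have hx' : 0 < √x := sqrt_pos.2 hx
    have hy' : 0 < √y := sqrt_pos.2 hy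
    have h1 := antitone_tanh_div hx' hy' (sqrt_le_sqrt hxy)
    simp only at h1
    have e : ∀ u : ℝ, 0 < u → sinh u * (1 / (2 * u)) / cosh u = sinh u / (cosh u * u) / 2 := by
      intro u hu
      have := cosh_pos u
      field_simp
    rw [e _ hx', e _ hy']
    linarith

theorem sq_le_of_cosh {M S D h : ℝ} (hM : 0 ≤ M) (hD : 0 ≤ D) (h1 : D ≤ h) (h2 : h ≤ S)
    (he : cosh M * cosh h = cosh S * cosh D) : M ^ 2 ≤ S ^ 2 + D ^ 2 - h ^ 2 := by
  have hh : 0 ≤ h := hD.trans h1
  have hS : 0 ≤ S := hh.trans h2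
  have hDh : D ^ 2 ≤ h ^ 2 := by gcongr
  have hhS : h ^ 2 ≤ S ^ 2 := by gcongr
  by_contra hcon
  push Not at hcon
  set m := S ^ 2 + D ^ 2 - h ^ 2 with hm
  have hm0 : 0 ≤ m := by
    have := sq_nonneg D
    rw [hm]; linarith
  have hmM : √m < M := by
    rw [← sqrt_sq hM]
    exact sqrt_lt_sqrt hm0 hcon
  have h3 : cosh (√m) < cosh M := by
    rw [cosh_lt_cosh, abs_of_nonneg (sqrt_nonneg m), abs_of_nonneg hM]
    exact hmM
  have h4 : cosh (√m) * cosh h < cosh S * cosh D := by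
    rw [← he]
    exact mul_lt_mul_of_pos_right h3 (cosh_pos h)
  have h5 : log (cosh (√m)) + log (cosh h) < log (cosh S) + log (cosh D) := by
    rw [← log_mul (cosh_pos _).ne' (cosh_pos _).ne', ← log_mul (cosh_pos _).ne' (cosh_pos _).ne']
    exact log_lt_log (mul_pos (cosh_pos _) (cosh_pos _)) h4
  have c := concave_psi.2
  have hS2 : S ^ 2 ∈ Ici (0 : ℝ) := sq_nonneg S
  have hD2 : D ^ 2 ∈ Ici (0 : ℝ) := sq_nonneg D
  rcases (hDh.trans hhS).eq_or_lt with heq | hlt
  · have e1 : h ^ 2 = S ^ 2 := le_antisymm hhS (heq ▸ hDh)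
    have e2 : h = S := by nlinarith
    have e3 : m = D ^ 2 := by rw [hm, e1]; ring
    rw [e3, sqrt_sq hD, e2] at h5
    linarith
  · have hpos : 0 < S ^ 2 - D ^ 2 := by linarith
    set θ := (h ^ 2 - D ^ 2) / (S ^ 2 - D ^ 2) with hθ
    have hθ0 : 0 ≤ θ := div_nonneg (by linarith) hpos.le
    have hθ1 : θ ≤ 1 := (div_le_one hpos).2 (by linarith)
    have e1 : θ * (S ^ 2 - D ^ 2) = h ^ 2 - D ^ 2 := div_mul_cancel₀ _ hpos.ne'
    have c1 := c hS2 hD2 hθ0 (by linarith : 0 ≤ 1 - θ) (by ring)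
    have c2 := c hD2 hS2 hθ0 (by linarith : 0 ≤ 1 - θ) (by ring)
    simp only [smul_eq_mul, sqrt_sq hS, sqrt_sq hD] at c1 c2
    have e2 : θ * S ^ 2 + (1 - θ) * D ^ 2 = h ^ 2 := by linarith
    have e3 : θ * D ^ 2 + (1 - θ) * S ^ 2 = m := by rw [hm]; linarith
    rw [e2, sqrt_sq hh] at c1
    rw [e3] at c2
    linarith

/-- the CN inequality of Bruhat and Tits in hyperbolic 3-space -/
theorem cn {x y m : H3} (h1 : dist x m = dist x y / 2) (h2 : dist m y = dist x y / 2) (q : H3) :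
    dist m q ^ 2 ≤ (dist x q ^ 2 + dist y q ^ 2) / 2 - dist x y ^ 2 / 4 := by
  have h3 := stewart h1 (by rw [h2]; ring) q
  set a := dist x y with ha
  have ha0 : 0 ≤ a := dist_nonneg
  rcases ha0.eq_or_lt with h0 | h0
  · rw [← h0] at h1 h2 ⊢
    have e1 : x = m := dist_eq_zero.1 (by rw [h1]; simp)
    have e2 : m = y := dist_eq_zero.1 (by rw [h2]; simp)
    subst e1 e2
    linarith
  have h4 : a - a / 2 = a / 2 := by ring
  have h5 : sinh a = 2 * sinh (a / 2) * cosh (a / 2) := by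
    rw [← sinh_two_mul, mul_div_cancel₀ _ (two_ne_zero : (2 : ℝ) ≠ 0)]
  have h6 : 0 < sinh (a / 2) := sinh_pos_iff.2 (by linarith)
  set X := dist x q with hX
  set Y := dist y q with hY
  have hX0 : 0 ≤ X := dist_nonneg
  have hY0 : 0 ≤ Y := dist_nonneg
  have t1 : a ≤ X + Y := by
    have := dist_triangle_right x y q
    exact this
  have t2 : X ≤ a + Y := dist_triangle x y q
  have t3 : Y ≤ a + X := by
    have := dist_triangle y x q
    rw [dist_comm y x] at this
    exact this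
  have h7 : 2 * (cosh (dist m q) * cosh (a / 2)) = cosh X + cosh Y := by
    rw [h4, h5] at h3
    have : sinh (a / 2) * (2 * (cosh (dist m q) * cosh (a / 2))) =
      sinh (a / 2) * (cosh X + cosh Y) := by linarith
    exact mul_left_cancel₀ h6.ne' this
  have h8 : cosh X + cosh Y = 2 * (cosh ((X + Y) / 2) * cosh (|X - Y| / 2)) := by
    have e1 : X = (X + Y) / 2 + (X - Y) / 2 := by ring
    have e2 : Y = (X + Y) / 2 - (X - Y) / 2 := by ring
    have e3 : cosh (|X - Y| / 2) = cosh ((X - Y) / 2) := by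
      rw [← cosh_abs ((X - Y) / 2), abs_div, abs_two]
    rw [e3]
    conv_lhs => rw [e1]
    have e4 : cosh Y = cosh ((X + Y) / 2 - (X - Y) / 2) := by rw [← e2]
    have e5 : cosh ((X + Y) / 2 + (X - Y) / 2) + cosh Y =
      2 * (cosh ((X + Y) / 2) * cosh ((X - Y) / 2)) := by
      rw [e4, cosh_add, cosh_sub]; ring
    exact e5
  have h9 : cosh (dist m q) * cosh (a / 2) = cosh ((X + Y) / 2) * cosh (|X - Y| / 2) := by
    linarith
  have h10 := sq_le_of_cosh (dist_nonneg (x := m) (y := q)) (by positivity)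
    (by
      have : |X - Y| ≤ a := abs_le.2 ⟨by linarith, by linarith⟩
      linarith) (by linarith) h9
  have h11 : (|X - Y| / 2) ^ 2 = (X - Y) ^ 2 / 4 := by
    rw [div_pow, sq_abs]; norm_num
  rw [h11] at h10
  refine h10.trans (le_of_eq (by ring))

end Vale.Agent.P198.H372
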