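import Vale.Agent.P198.H3.Model

/-!
# P198: hyperbolic 3-space is contractible
-/

namespace Vale.Agent.P198.H372

open Metric Set Topology Filter P198H P198H.H3 Real

/-- the coordinates are close if the hyperbolic distance is small -/
theorem coord_le (p q : H3) :
    ‖q.z - p.z‖ ^ 2 + (q.t - p.t) ^ 2 ≤
      4 * p.t ^ 2 * cosh (dist q p) * (cosh (dist q p) - 1) := by
  have hp := p.t_pos
  have hq := q.t_pos
  have h := cosh_dist q p
  have h0 : 0 ≤ ‖q.z - p.z‖ ^ 2 := by positivity
  have h1 : ‖q.z - p.z‖ ^ 2 + (q.t - p.t) ^ 2 = 2 * q.t * p.t * (cosh (dist q p) - 1) := by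
    rw [h]
    field_simp
    ring
  have h2 : q.t ≤ 2 * cosh (dist q p) * p.t := by
    have h3 : q.t * q.t ≤ 2 * q.t * p.t * cosh (dist q p) := by
      nlinarith [sq_nonneg p.t]
    have h4 : q.t * q.t ≤ q.t * (2 * cosh (dist q p) * p.t) := by linarith
    exact le_of_mul_le_mul_left h4 hq
  have h5 : 0 ≤ cosh (dist q p) - 1 := by
    have := one_le_cosh (dist q p)
    linarith
  rw [h1]
  calc 2 * q.t * p.t * (cosh (dist q p) - 1)
      ≤ 2 * (2 * cosh (dist q p) * p.t) * p.t * (cosh (dist q p) - 1) := by gcongr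
    _ = _ := by ring

/-- the coordinates -/
def coord (p : H3) : {x : ℂ × ℝ // 0 < x.2} := ⟨(p.z, p.t), p.t_pos⟩

theorem continuous_coord : Continuous coord := by
  rw [continuous_iff_continuousAt]
  intro p
  have hlim : Tendsto (fun q : H3 => 4 * p.t ^ 2 * cosh (dist q p) * (cosh (dist q p) - 1))
      (𝓝 p) (𝓝 0) := by
    have hc : Continuous fun q : H3 => 4 * p.t ^ 2 * cosh (dist q p) * (cosh (dist q p) - 1) := by
      have h1 : Continuous fun q : H3 => cosh (dist q p) :=
        continuous_cosh.comp (continuous_id.dist continuous_const)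
      fun_prop
    have := hc.tendsto p
    simpa using this
  have hz : Tendsto (fun q : H3 => q.z) (𝓝 p) (𝓝 p.z) := by
    rw [tendsto_iff_norm_sub_tendsto_zero]
    have h1 : Tendsto (fun q : H3 => ‖q.z - p.z‖ ^ 2) (𝓝 p) (𝓝 0) := by
      refine squeeze_zero (fun q => by positivity) (fun q => ?_) hlim
      have := coord_le p q
      nlinarith [sq_nonneg (q.t - p.t)]
    have h2 := h1.sqrt
    simpa using h2
  have ht : Tendsto (fun q : H3 => q.t) (𝓝 p) (𝓝 p.t) := by
    rw [tendsto_iff_norm_sub_tendsto_zero]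
    have h1 : Tendsto (fun q : H3 => (q.t - p.t) ^ 2) (𝓝 p) (𝓝 0) := by
      refine squeeze_zero (fun q => by positivity) (fun q => ?_) hlim
      have := coord_le p q
      nlinarith [sq_nonneg ‖q.z - p.z‖]
    have h2 := h1.sqrt
    simpa [Real.sqrt_sq_eq_abs] using h2
  exact tendsto_subtype_rng.2 (hz.prodMk_nhds ht)

/-- upper half-space is homeomorphic to the Euclidean half-space -/
def homeo : H3 ≃ₜ {x : ℂ × ℝ // 0 < x.2} where
  toFun := coord
  invFun := ofSub
  left_inv _ := rfl
  right_inv _ := rfl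
  continuous_toFun := continuous_coord
  continuous_invFun := continuous_ofSub

instance : ContractibleSpace H3 := by
  have hconv : Convex ℝ {x : ℂ × ℝ | 0 < x.2} := by
    intro x hx y hy a b ha hb hab
    change 0 < (a • x + b • y).2
    have h1 : (a • x + b • y).2 = a * x.2 + b * y.2 := rfl
    rw [h1]
    have hx' : 0 < x.2 := hx
    have hy' : 0 < y.2 := hy
    rcases ha.eq_or_lt with h | h
    · have hb1 : b = 1 := by linarith
      rw [← h, hb1]; linarith
    · have := mul_pos h hx'
      have := mul_nonneg hb hy'.le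
      linarith
  have hne : {x : ℂ × ℝ | 0 < x.2}.Nonempty := ⟨(0, 1), (one_pos : (0 : ℝ) < 1)⟩
  have : ContractibleSpace {x : ℂ × ℝ | 0 < x.2} := hconv.contractibleSpace hne
  exact homeo.contractibleSpace_iff.2 this

instance : SimplyConnectedSpace H3 := inferInstance

end Vale.Agent.P198.H372
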