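import Vale.Agent.P198.H372.Quot
import Vale.Agent.P198.H372.H3Top

/-!
# P198: closed hyperbolic 3-manifolds from geometric actions of torsion-free groups
-/

namespace Vale.Agent.P198.H372

open Metric Set Topology P198H

/-- a proper action of a torsion-free group is free -/
theorem free_of_torsionFree {X G : Type} [MetricSpace X] [Group G] (ρ : G →* (X ≃ᵢ X))
    (hp : ∀ K : Set X, IsCompact K → {g : G | ((ρ g) '' K ∩ K).Nonempty}.Finite)
    (ht : ∀ (g : G) (n : ℕ), 0 < n → g ^ n = 1 → g = 1) (g : G) (x : X) (h : ρ g x = x) : g = 1 := by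
  have hfin := hp {x} isCompact_singleton
  have hpow : ∀ n : ℕ, ρ (g ^ n) x = x := by
    intro n
    induction n with
    | zero => rw [pow_zero, rho_one]
    | succ n ih => rw [pow_succ, rho_mul, h, ih]
  have hmem : ∀ n : ℕ, g ^ n ∈ {g : G | ((ρ g) '' {x} ∩ {x}).Nonempty} := fun n =>
    ⟨x, ⟨x, rfl, hpow n⟩, rfl⟩
  by_contra hg
  have hinj : Function.Injective fun n : ℕ => g ^ n := by
    intro a b hab
    by_contra hne
    rcases lt_or_gt_of_ne hne with hlt | hlt
    · refine hg (ht g (b - a) (by omega) ?_)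
      have h1 : g ^ a * g ^ (b - a) = g ^ a := by
        rw [← pow_add, show a + (b - a) = b by omega]; exact hab.symm
      exact mul_eq_left.1 h1
    · refine hg (ht g (a - b) (by omega) ?_)
      have h1 : g ^ b * g ^ (a - b) = g ^ b := by
        rw [← pow_add, show b + (a - b) = a by omega]; exact hab
      exact mul_eq_left.1 h1
  exact Set.infinite_of_injective_forall_mem hinj hmem hfin

/-- the closed manifold of a geometric action of a torsion-free group -/
theorem exists_manifold {G : Type} [Group G] (ρ : G →* (H3 ≃ᵢ H3))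
    (hp : ∀ K : Set H3, IsCompact K → {g : G | ((ρ g) '' K ∩ K).Nonempty}.Finite)
    (hc : ∃ K : Set H3, IsCompact K ∧ ⋃ g : G, (ρ g) '' K = univ)
    (ht : ∀ (g : G) (n : ℕ), 0 < n → g ^ n = 1 → g = 1) :
    ∃ (M : Type) (_ : MetricSpace M), CompactSpace M ∧ ConnectedSpace M ∧
      (∀ m : M, ∃ r > 0, ∃ x : H3, Nonempty (ball m r ≃ᵢ ball x r)) ∧
      (∀ m : M, Nonempty (FundamentalGroup M m ≃* G)) ∧
      ∃ π : H3 → M, IsCoveringMap π ∧ ∀ x y, π x = π y ↔ ∃ g, ρ g x = y := by
  obtain ⟨M, _, π, h1, h2, h3, h4, h5, h6⟩ := exists_quotient ρ hp hc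
    (free_of_torsionFree ρ hp ht)
  exact ⟨M, inferInstance, h1, h2, h4, h6, π, h5, h3⟩

end Vale.Agent.P198.H372
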