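import Vale.Agent.P198.H372.Bridge
import Vale.Agent.P198.CH.Close

/-!
# P198: the action on the boundary is conjugate to an action by Moebius and anti-Moebius maps
-/

open Metric Set TopologicalSpace MeasureTheory Filter Topology
open scoped ContDiff ComplexConjugate Gradient

namespace Vale.Agent.P198.H372

section Chart

open P198GL P198S2 P198C5 P198C4 P198ST P198Q Vale.Agent.P363.R.Sob

variable {G Z : Type} [Group G] [MetricSpace Z] [MulAction G Z]

/-- from a quasisymmetric local chart and the zoom theorem to the conjugation (the proof is the one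
of `P198GL.geometric_of_chart`). -/
theorem moebius_of_chart [CompactSpace Z] [ConnectedSpace Z] [Countable G] (q : QM G Z)
    (hP : Planar Z) (hGC : P198G.GCStatement) (e : OpenPartialHomeomorph Z ℂ)
    (he : P198S2.LChart e) :
    ∃ h : Z ≃ₜ OnePoint ℂ, ∀ g : G, P198H.IsMoeb (fun x => h (g • h.symm x)) := by
  have hc : ∀ g : G, Continuous (fun x : Z => g • x) := smul_continuous q
  obtain ⟨lam, Lam, B, hlam, hB, hcontr⟩ := exists_contrB q hc e he
  -- a Lebesgue point in the image of the chart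
  obtain ⟨x₀, hx₀t, hx₀⟩ : ∃ x₀ ∈ e.target, LebPt B x₀ := by
    have hne : e.target.Nonempty := by
      obtain ⟨z, hz⟩ := he.nonempty
      exact ⟨e z, e.map_source hz⟩
    have h1 := e.open_target.measure_pos volume hne
    have h2 : volume {x : ℂ | ¬ LebPt B x} = 0 := ae_lebPt hB
    by_contra hcon
    push Not at hcon
    have h3 : e.target ⊆ {x : ℂ | ¬ LebPt B x} := fun x hx => hcon x hx
    exact absurd (measure_mono_null h3 h2) h1.ne'
  set z₀ : Z := e.symm x₀ with hz₀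
  have hz₀s : z₀ ∈ e.source := e.map_target hx₀t
  have hez : e z₀ = x₀ := e.right_inv hx₀t
  obtain ⟨ρ, H, hsub, hch⟩ := LChart.toG he hz₀s
  obtain ⟨h, r, b, F, hZ⟩ := hGC G Z q hP e z₀ ρ 1 H hch
  -- the transition maps in the limit chart
  set γ : G → OpenPartialHomeomorph ℂ ℂ := fun g => finPart (conjMap hc F g) with hγ
  have hγs : ∀ g, (γ g).symm = γ g⁻¹ := fun g => by
    rw [hγ]
    simp only
    rw [finPart_symm, conjMap_symm]
  have hcB : ∀ g, ContrB (fun _ => B x₀) (γ g) := by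
    intro g
    refine contrB_of_zoom hlam hB hx₀ (l := atTop) (r := r) hZ.r_pos hZ.r_lim
      (γ' := fun n => P198S2.trans hc e ((h n)⁻¹ * g * h n)) (fun n => hcontr _) ?_
    intro φ hφ hs
    obtain ⟨h1, -, h2⟩ := hconv hc e hZ hsub g hφ.continuous hφ.2 hs
    rw [hez] at h1 h2
    exact ⟨h1, h2⟩
  -- the linear change
  obtain ⟨S, hS⟩ := exists_sqrt hlam (B x₀) (hB.symm x₀) (hB.lower x₀)
  obtain ⟨S', hS'⟩ := exists_adj S
  set T : ℂ ≃L[ℝ] ℂ := S'.symm with hT
  have hC : ∀ g, Contr (cj T (γ g)) := fun g =>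
    contr_cj hS hS' (fun φ h1 h2 h3 => hcB g φ ⟨h1, h2⟩ h3)
  have hC' : ∀ g, Contr (cj T (γ g)).symm := fun g => by
    rw [cj_symm, hγs]
    exact hC g⁻¹
  have hpre : ∀ g, IsPreconnected (cj T (γ g)).source := by
    intro g
    rw [cj_source]
    have h1 : T.symm ⁻¹' (γ g).source = T '' (γ g).source := by
      ext x
      constructor
      · intro hx
        exact ⟨T.symm x, hx, by simp⟩
      · rintro ⟨y, hy, rfl⟩
        simpa using hy
    rw [h1]
    exact (isPreconnected_source _).image _ T.continuous.continuousOn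
  have key : ∀ (g : G) (z : ℂ), (F.trans T.toHomeomorph.onePointCongr)
      (g • (F.trans T.toHomeomorph.onePointCongr).symm (z : OnePoint ℂ)) ≠ OnePoint.infty →
      z ∈ (cj T (γ g)).source ∧ ((cj T (γ g) z : ℂ) : OnePoint ℂ) =
        (F.trans T.toHomeomorph.onePointCongr)
          (g • (F.trans T.toHomeomorph.onePointCongr).symm (z : OnePoint ℂ)) := by
    intro g z hz
    have hsymm : (F.trans T.toHomeomorph.onePointCongr).symm (z : OnePoint ℂ) =
      F.symm ((T.symm z : ℂ) : OnePoint ℂ) := rfl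
    rw [hsymm] at hz ⊢
    have hmap : ∀ w : OnePoint ℂ, T.toHomeomorph.onePointCongr w ≠ OnePoint.infty →
        w ≠ OnePoint.infty := by
      rintro w hw rfl
      exact hw rfl
    have hne : conjMap hc F g ((T.symm z : ℂ) : OnePoint ℂ) ≠ OnePoint.infty := hmap _ hz
    have hmem : T.symm z ∈ (γ g).source := mem_finPart_source.2 hne
    refine ⟨hmem, ?_⟩
    have h1 := finPart_coe hmem
    change ((T (γ g (T.symm z)) : ℂ) : OnePoint ℂ) =
      T.toHomeomorph.onePointCongr (conjMap hc F g ((T.symm z : ℂ) : OnePoint ℂ))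
    rw [← h1]
    rfl
  set h' : Z ≃ₜ OnePoint ℂ := F.trans T.toHomeomorph.onePointCongr with hh'
  refine ⟨h', fun g => ?_⟩
  refine P198H.isMoeb_of_holo_or_anti (γ := fun x => h' (g • h'.symm x))
    (f := fun z => cj T (γ g) z) ?_ ?_ ?_ ?_
  · exact h'.continuous.comp ((P198Q.smul_continuous q g).comp h'.symm.continuous)
  · exact h'.bijective.comp ((MulAction.bijective g).comp h'.symm.bijective)
  · intro z hz
    exact (key g z hz).2
  · rcases holo_or_anti _ (hpre g) (hC g) (hC' g) with h1 | h1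
    · exact Or.inl (h1.mono fun z hz => (key g z hz).1)
    · exact Or.inr (h1.mono fun z hz => (key g z hz).1)

end Chart

/-- the abstract form of Stage 2 -/
theorem absStage2 : Vale.Agent.P198.H.AbsStage2 := by
  intro G Z _ _ _ _ _ _ q hP ⟨f⟩
  obtain ⟨N, hN⟩ := P198Q.exists_net Z
  obtain ⟨c, hc⟩ := P198C137.ch G Z q hP ⟨f⟩ N hN (fun t ht => P198Q.theoremA q hP N hN t ht)
  exact moebius_of_chart q hP P198G.gcStatement c hc

section Rays

open Vale.Agent.P198.H P198H

variable {G : Type} [Group G] {S : Finset G}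

/-- the action of the group on end points of rays -/
theorem smul_rayEnd (hS : Subgroup.closure (S : Set G) = ⊤) (H : HypLen G) (hH : H.len = wlen S)
    {r r' : Ray S} {g : G} {C : ℕ} (h : ∀ n, ∃ m, wdist S (g * r.1 n) (r'.1 m) ≤ C) :
    g • rayEnd H hH r = rayEnd H hH r' := by
  apply Subtype.ext
  rw [H.smul_val]
  have h1 : Tendsto (fun n => H.ι (g * r.1 n)) atTop (𝓝 (g • (rayEnd H hH r).1)) := by
    have := ((H.continuous_gsmul g).tendsto _).comp (tendsto_rayEnd H hH r)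
    exact this.congr fun n => H.smul_ι g _
  set K : ℝ := wlen S g + C with hK
  have h2 : ∀ n : ℕ, dist (H.ι (g * r.1 n)) (rayEnd H hH r').1 ≤
      2 * H.θ ^ (-K) * H.θ ^ n := by
    intro n
    obtain ⟨m, hm⟩ := h n
    have e1 : (n : ℝ) ≤ wlen S g + wlen S (g * r.1 n) := by
      have := wlen_mul_le hS g⁻¹ (g * r.1 n)
      rw [inv_mul_cancel_left, wlen_inv, r.wlen_eq] at this
      exact_mod_cast this
    have e2 : (wlen S (g * r.1 n) : ℝ) ≤ m + C := by
      have := wlen_le_add_wdist hS (r'.1 m) (g * r.1 n)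
      rw [r'.wlen_eq, wdist_comm] at this
      exact_mod_cast this.trans (by omega)
    have e3 : (wdist S (g * r.1 n) (r'.1 m) : ℝ) ≤ C := by exact_mod_cast hm
    have e4 : dist (H.ι (g * r.1 n)) (H.ι (r'.1 m)) ≤ H.θ ^ (-K) * H.θ ^ n := by
      refine (dist_ι_le_rpow H _ _).trans ?_
      rw [← Real.rpow_natCast H.θ n, ← Real.rpow_add H.θ_pos]
      apply Real.rpow_le_rpow_of_exponent_ge H.θ_pos H.θ_le_one
      rw [H.g2_def, hH, r'.wlen_eq]
      change _ ≤ ((wlen S (g * r.1 n) : ℝ) + m - wdist S (g * r.1 n) (r'.1 m)) / 2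
      linarith
    have e5 : dist (H.ι (r'.1 m)) (rayEnd H hH r').1 ≤ H.θ ^ (-K) * H.θ ^ n := by
      refine (dist_rayEnd H hH r' m).trans ?_
      rw [← Real.rpow_natCast H.θ n, ← Real.rpow_natCast H.θ m, ← Real.rpow_add H.θ_pos]
      apply Real.rpow_le_rpow_of_exponent_ge H.θ_pos H.θ_le_one
      linarith
    have e6 := dist_triangle (H.ι (g * r.1 n)) (H.ι (r'.1 m)) (rayEnd H hH r').1
    linarith
  have h3 : Tendsto (fun n : ℕ => 2 * H.θ ^ (-K) * H.θ ^ n) atTop (𝓝 0) := by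
    have := (tendsto_θ_pow H).const_mul (2 * H.θ ^ (-K))
    rwa [mul_zero] at this
  have h4 : Tendsto (fun n => H.ι (g * r.1 n)) atTop (𝓝 (rayEnd H hH r').1) := by
    rw [tendsto_iff_dist_tendsto_zero]
    exact squeeze_zero (fun _ => dist_nonneg) h2 h3
  exact tendsto_nhds_unique h1 h4

/-- conversely, `g r` is asymptotic to `r'` if `g` maps the end point of `r` to that of `r'` -/
theorem bdd_of_smul_rayEnd (hS : Subgroup.closure (S : Set G) = ⊤) (H : HypLen G)
    (hH : H.len = wlen S) {r r' : Ray S} {g : G} (h : g • rayEnd H hH r = rayEnd H hH r') :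
    ∃ C : ℕ, ∀ n, wdist S (g * r.1 n) (r'.1 n) ≤ C := by
  have hlow : ∀ n : ℕ, (n : ℝ) ≤ wlen S g + wlen S (g * r.1 n) := by
    intro n
    have := wlen_mul_le hS g⁻¹ (g * r.1 n)
    rw [inv_mul_cancel_left, wlen_inv, r.wlen_eq] at this
    exact_mod_cast this
  have hup : ∀ n : ℕ, (wlen S (g * r.1 n) : ℝ) ≤ wlen S g + n := by
    intro n
    have := wlen_mul_le hS g (r.1 n)
    rw [r.wlen_eq] at this
    exact_mod_cast this
  set K : ℝ := ((wlen S g : ℕ) : ℝ) with hK
  have hK0 : 0 ≤ K := Nat.cast_nonneg _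
  have h1 : ∀ n m : ℕ, n ≤ m → dist (H.ι (g * r.1 n)) (H.ι (g * r.1 m)) ≤
      H.θ ^ ((n : ℝ) - K) := by
    intro n m hnm
    refine (dist_ι_le_rpow H _ _).trans ?_
    apply Real.rpow_le_rpow_of_exponent_ge H.θ_pos H.θ_le_one
    have e1 : ((wdist S (g * r.1 n) (g * r.1 m) : ℕ) : ℝ) = (m : ℝ) - n := by
      rw [wdist_mul_left, r.2.2 n m hnm, Nat.cast_sub hnm]
    rw [H.g2_def, hH]
    change _ ≤ ((wlen S (g * r.1 n) : ℝ) + wlen S (g * r.1 m) -
      wdist S (g * r.1 n) (g * r.1 m)) / 2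
    rw [e1]
    have e2 := hlow n
    have e3 := hlow m
    linarith
  have h2 : ∀ n : ℕ, dist (H.ι (g * r.1 n)) (rayEnd H hH r').1 ≤ H.θ ^ ((n : ℝ) - K) := by
    intro n
    have e1 : Tendsto (fun m => H.ι (g * r.1 m)) atTop (𝓝 (rayEnd H hH r').1) := by
      rw [← h, H.smul_val]
      have := ((H.continuous_gsmul g).tendsto _).comp (tendsto_rayEnd H hH r)
      exact this.congr fun n => H.smul_ι g _
    have e2 : Tendsto (fun m => dist (H.ι (g * r.1 n)) (H.ι (g * r.1 m))) atTop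
      (𝓝 (dist (H.ι (g * r.1 n)) (rayEnd H hH r').1)) := tendsto_const_nhds.dist e1
    refine le_of_tendsto e2 ?_
    filter_upwards [eventually_ge_atTop n] with m hm
    exact h1 n m hm
  have h3 : ∀ n : ℕ, H.θ ^ (n : ℝ) ≤ H.θ ^ ((n : ℝ) - K) := fun n =>
    Real.rpow_le_rpow_of_exponent_ge H.θ_pos H.θ_le_one (by linarith)
  obtain ⟨m, hm⟩ : ∃ m : ℕ, H.θ ^ m < 1 / 4 := exists_pow_lt_of_lt_one (by norm_num) H.θ_lt_one
  refine ⟨3 * wlen S g + 2 * m, fun n => ?_⟩
  by_cases hne : g * r.1 n = r'.1 n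
  · rw [hne, wdist_self]; exact Nat.zero_le _
  have e1 := rpow_le_dist_ι H hne
  have e2 : dist (H.ι (g * r.1 n)) (H.ι (r'.1 n)) ≤ 2 * H.θ ^ ((n : ℝ) - K) := by
    have e3 := dist_rayEnd H hH r' n
    rw [← Real.rpow_natCast] at e3
    have e4 := h3 n
    have e5 := h2 n
    have e6 := dist_triangle_right (H.ι (g * r.1 n)) (H.ι (r'.1 n)) (rayEnd H hH r').1
    linarith
  have e3 : H.θ ^ H.g2 (g * r.1 n) (r'.1 n) ≤ H.θ ^ ((n : ℝ) - K - m) := by
    rw [Real.rpow_sub H.θ_pos _ (m : ℝ), Real.rpow_natCast H.θ m, le_div_iff₀ (pow_pos H.θ_pos m)]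
    have h4 : H.θ ^ H.g2 (g * r.1 n) (r'.1 n) ≤ 4 * H.θ ^ ((n : ℝ) - K) := by linarith
    have h5 : 0 < H.θ ^ ((n : ℝ) - K) := Real.rpow_pos_of_pos H.θ_pos _
    calc H.θ ^ H.g2 (g * r.1 n) (r'.1 n) * H.θ ^ m ≤ (4 * H.θ ^ ((n : ℝ) - K)) * (1 / 4) := by
          apply mul_le_mul h4 hm.le (pow_pos H.θ_pos m).le (by positivity)
      _ = H.θ ^ ((n : ℝ) - K) := by ring
  have e4 : (n : ℝ) - K - m ≤ H.g2 (g * r.1 n) (r'.1 n) := by
    by_contra hlt
    push Not at hlt
    have := Real.rpow_lt_rpow_of_exponent_gt H.θ_pos H.θ_lt_one hlt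
    linarith
  rw [H.g2_def, hH, r'.wlen_eq] at e4
  have e5 := hup n
  have e6 : ((wdist S (g * r.1 n) (r'.1 n) : ℕ) : ℝ) ≤ ((3 * wlen S g + 2 * m : ℕ) : ℝ) := by
    change (n : ℝ) - K - m ≤ ((wlen S (g * r.1 n) : ℝ) + n - wdist S (g * r.1 n) (r'.1 n)) / 2 at e4
    push_cast
    linarith
  exact_mod_cast e6

end Rays

end Vale.Agent.P198.H372
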