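import Vale.Agent.P198.H372.Man
import Vale.Agent.P198.H372.Bridge

/-!
# P198: a geometric action gives a quasi-isometry with hyperbolic 3-space
-/

namespace Vale.Agent.P198.H372

open Metric Set Topology P198H P198H.H3 Real Vale.Agent.P198.H

/-- midpoints in hyperbolic 3-space -/
theorem exists_mid (p q : H3) : ∃ m : H3, dist p m = dist p q / 2 ∧ dist m q = dist p q / 2 := by
  have hp := p.t_pos
  have hq := q.t_pos
  set c := cosh (dist p q) with hc
  set E := 2 * cosh (dist p q / 2) with hE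
  have hE0 : 0 < E := by have := cosh_pos (dist p q / 2); positivity
  have hE2 : E ^ 2 = 2 * (1 + c) := by
    have h1 := cosh_sq (dist p q / 2)
    have h2 : cosh (dist p q) = 2 * cosh (dist p q / 2) ^ 2 - 1 := by
      have := cosh_two_mul (dist p q / 2)
      rw [mul_div_cancel₀ _ (two_ne_zero : (2 : ℝ) ≠ 0)] at this
      rw [this, h1]; ring
    rw [hE, hc, h2]; ring
  have hcd : ‖p.z - q.z‖ ^ 2 = 2 * p.t * q.t * (c - 1) - (p.t - q.t) ^ 2 := by
    have := cosh_dist_mul p q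
    rw [← hc] at this
    linarith
  let m : H3 := ⟨((q.t : ℂ) * p.z + (p.t : ℂ) * q.z) / ((p.t + q.t : ℝ) : ℂ),
    E * (p.t * q.t) / (p.t + q.t), by positivity⟩
  have hst : 0 < p.t + q.t := by positivity
  have hstc : ((p.t + q.t : ℝ) : ℂ) ≠ 0 := by exact_mod_cast hst.ne'
  have hmz1 : ‖p.z - m.z‖ ^ 2 = p.t ^ 2 * ‖p.z - q.z‖ ^ 2 / (p.t + q.t) ^ 2 := by
    have : p.z - m.z = (p.t : ℂ) * (p.z - q.z) / ((p.t + q.t : ℝ) : ℂ) := by
      change p.z - ((q.t : ℂ) * p.z + (p.t : ℂ) * q.z) / ((p.t + q.t : ℝ) : ℂ) = _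
      field_simp
      push_cast
      ring
    rw [this, norm_div, norm_mul, Complex.norm_real, Complex.norm_real, norm_of_nonneg hp.le,
      norm_of_nonneg hst.le, div_pow, mul_pow]
  have hmz2 : ‖m.z - q.z‖ ^ 2 = q.t ^ 2 * ‖p.z - q.z‖ ^ 2 / (p.t + q.t) ^ 2 := by
    have : m.z - q.z = (q.t : ℂ) * (p.z - q.z) / ((p.t + q.t : ℝ) : ℂ) := by
      change ((q.t : ℂ) * p.z + (p.t : ℂ) * q.z) / ((p.t + q.t : ℝ) : ℂ) - q.z = _
      field_simp
      push_cast
      ring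
    rw [this, norm_div, norm_mul, Complex.norm_real, Complex.norm_real, norm_of_nonneg hq.le,
      norm_of_nonneg hst.le, div_pow, mul_pow]
  have hmt : m.t = E * (p.t * q.t) / (p.t + q.t) := rfl
  have key1 : cosh (dist p m) = cosh (dist p q / 2) := by
    rw [cosh_dist, hmz1, hmt, hcd]
    have h2 : cosh (dist p q / 2) = E / 2 := by rw [hE]; ring
    rw [h2]
    field_simp
    nlinarith [hE2]
  have key2 : cosh (dist m q) = cosh (dist p q / 2) := by
    rw [cosh_dist, hmz2, hmt, hcd]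
    have h2 : cosh (dist p q / 2) = E / 2 := by rw [hE]; ring
    rw [h2]
    field_simp
    nlinarith [hE2]
  have hh : 0 ≤ dist p q / 2 := by positivity
  refine ⟨m, ?_, ?_⟩
  · have h1 := cosh_le_cosh.1 key1.le
    have h2 := cosh_le_cosh.1 key1.ge
    rw [abs_of_nonneg dist_nonneg, abs_of_nonneg hh] at h1 h2
    exact le_antisymm h1 h2
  · have h1 := cosh_le_cosh.1 key2.le
    have h2 := cosh_le_cosh.1 key2.ge
    rw [abs_of_nonneg dist_nonneg, abs_of_nonneg hh] at h1 h2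
    exact le_antisymm h1 h2

section

variable {G : Type} [Group G] {S : Finset G} {ρ : G →* (H3 ≃ᵢ H3)}

theorem dist_rho (g h : G) (x : H3) : dist (ρ g x) (ρ h x) = dist x (ρ (g⁻¹ * h) x) := by
  rw [← (ρ g).dist_eq x, ← rho_mul, mul_inv_cancel_left]

/-- upper bound: orbit maps are Lipschitz -/
theorem exists_lip (hS : Subgroup.closure (S : Set G) = ⊤) (x : H3) :
    ∃ L : ℝ, 0 ≤ L ∧ ∀ g h, dist (ρ g x) (ρ h x) ≤ L * wdist S g h := by
  set L : ℝ := ∑ s ∈ S, dist x (ρ s x) with hL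
  have hL0 : 0 ≤ L := Finset.sum_nonneg fun _ _ => dist_nonneg
  have h1 : ∀ s : G, s ∈ S ∨ s⁻¹ ∈ S → dist x (ρ s x) ≤ L := by
    rintro s (hs | hs)
    · exact Finset.single_le_sum (f := fun s => dist x (ρ s x)) (fun _ _ => dist_nonneg) hs
    · have h2 := Finset.single_le_sum (f := fun s => dist x (ρ s x)) (fun _ _ => dist_nonneg) hs
      refine le_trans (le_of_eq ?_) h2
      rw [← (ρ s).dist_eq x (ρ s⁻¹ x), ← rho_mul, mul_inv_cancel, rho_one, dist_comm]
  have h2 : ∀ l : List G, (∀ s ∈ l, s ∈ S ∨ s⁻¹ ∈ S) → dist x (ρ l.prod x) ≤ L * l.length := by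
    intro l
    induction l with
    | nil => intro _; simp
    | cons a l ih =>
      intro hl
      have h3 := ih fun s hs => hl s (by simp [hs])
      have h4 := h1 a (hl a (by simp))
      rw [List.prod_cons, rho_mul, List.length_cons]
      have h5 := dist_triangle x (ρ a x) (ρ a (ρ l.prod x))
      rw [(ρ a).dist_eq] at h5
      push_cast
      linarith
  refine ⟨L, hL0, fun g h => ?_⟩
  obtain ⟨l, hl1, hl2, hl3⟩ := exists_word hS (g⁻¹ * h)
  have h3 := h2 l hl2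
  rw [hl3, hl1] at h3
  rw [dist_rho]
  exact h3

/-- lower bound -/
theorem exists_low (hS : Subgroup.closure (S : Set G) = ⊤)
    (hp : ∀ K : Set H3, IsCompact K → {g : G | ((ρ g) '' K ∩ K).Nonempty}.Finite)
    (hc : ∃ K : Set H3, IsCompact K ∧ ⋃ g : G, (ρ g) '' K = Set.univ) (x : H3) :
    ∃ L : ℝ, 0 ≤ L ∧ ∀ g h, (wdist S g h : ℝ) ≤ L * dist (ρ g x) (ρ h x) + L := by
  obtain ⟨K, hK, hKu⟩ := hc
  obtain ⟨R₀, hR₀⟩ := hK.isBounded.subset_closedBall x
  set R := max R₀ 0 with hR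
  have hR0 : 0 ≤ R := le_max_right _ _
  have hnear : ∀ y : H3, ∃ g : G, dist y (ρ g x) ≤ R := by
    intro y
    have hy : y ∈ ⋃ g : G, (ρ g) '' K := by rw [hKu]; trivial
    obtain ⟨g, k, hk, rfl⟩ := mem_iUnion.1 hy
    refine ⟨g, ?_⟩
    rw [(ρ g).dist_eq]
    exact (mem_closedBall.1 (hR₀ hk)).trans (le_max_left _ _)
  have hF := finite_le hp x x (2 * R + 1)
  set B : ℝ := ∑ g ∈ hF.toFinset, (wlen S g : ℝ) with hB
  have hB0 : 0 ≤ B := Finset.sum_nonneg fun _ _ => Nat.cast_nonneg _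
  have hBl : ∀ g : G, dist x (ρ g x) ≤ 2 * R + 1 → (wlen S g : ℝ) ≤ B := by
    intro g hg
    exact Finset.single_le_sum (f := fun g => (wlen S g : ℝ)) (fun _ _ => Nat.cast_nonneg _)
      (hF.mem_toFinset.2 hg)
  have main : ∀ (k : ℕ) (y z : H3) (g h : G), dist y z ≤ 2 ^ k → dist y (ρ g x) ≤ R →
      dist z (ρ h x) ≤ R → (wdist S g h : ℝ) ≤ B * 2 ^ k := by
    intro k
    induction k with
    | zero =>
      intro y z g h h1 h2 h3
      rw [pow_zero] at h1
      rw [pow_zero, mul_one]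
      refine hBl _ ?_
      rw [← dist_rho]
      have h4 := dist_triangle4 (ρ g x) y z (ρ h x)
      rw [dist_comm (ρ g x) y] at h4
      linarith
    | succ k ih =>
      intro y z g h h1 h2 h3
      rw [pow_succ] at h1
      obtain ⟨m, hm1, hm2⟩ := exists_mid y z
      obtain ⟨g', hg'⟩ := hnear m
      have h4 := ih y m g g' (by rw [hm1]; linarith) h2 hg'
      have h5 := ih m z g' h (by rw [hm2]; linarith) hg' h3
      have h6 : (wdist S g h : ℝ) ≤ wdist S g g' + wdist S g' h := by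
        exact_mod_cast wdist_triangle hS g g' h
      rw [pow_succ]
      linarith
  refine ⟨2 * B, by positivity, fun g h => ?_⟩
  set d := dist (ρ g x) (ρ h x) with hd
  have hd0 : 0 ≤ d := dist_nonneg
  have hex : ∃ k : ℕ, d ≤ 2 ^ k := by
    obtain ⟨k, hk⟩ := pow_unbounded_of_one_lt d (one_lt_two)
    exact ⟨k, hk.le⟩
  classical
  have hk1 := Nat.find_spec hex
  set k := Nat.find hex with hk
  have hk2 : (2 : ℝ) ^ k ≤ 2 * d + 1 := by
    rcases Nat.eq_zero_or_pos k with h0 | h0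
    · rw [h0, pow_zero]; linarith
    · obtain ⟨j, hj⟩ := Nat.exists_eq_succ_of_ne_zero h0.ne'
      have h1 := Nat.find_min hex (m := j) (by rw [← hk, hj]; exact Nat.lt_succ_self j)
      rw [hj, pow_succ]
      linarith [not_le.1 h1]
  have h1 := main k (ρ g x) (ρ h x) g h hk1 (by rw [dist_self]; exact hR0)
    (by rw [dist_self]; exact hR0)
  calc (wdist S g h : ℝ) ≤ B * 2 ^ k := h1
    _ ≤ B * (2 * d + 1) := by gcongr
    _ ≤ 2 * B * d + 2 * B := by linarith

/-- **Orbit maps are quasi-isometries.** -/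
theorem exists_qi (hS : Subgroup.closure (S : Set G) = ⊤)
    (hp : ∀ K : Set H3, IsCompact K → {g : G | ((ρ g) '' K ∩ K).Nonempty}.Finite)
    (hc : ∃ K : Set H3, IsCompact K ∧ ⋃ g : G, (ρ g) '' K = Set.univ) (x : H3) :
    ∃ L : ℝ, (∀ g h, ((SimpleGraph.mulCayley (S : Set G)).dist g h : ℝ) ≤
        L * dist (ρ g x) (ρ h x) + L ∧
      dist (ρ g x) (ρ h x) ≤ L * (SimpleGraph.mulCayley (S : Set G)).dist g h + L) ∧
      ∀ y : H3, ∃ g, dist y (ρ g x) ≤ L := by
  obtain ⟨L₁, hL₁, h1⟩ := exists_lip (ρ := ρ) hS x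
  obtain ⟨L₂, hL₂, h2⟩ := exists_low hS hp hc x
  obtain ⟨K, hK, hKu⟩ := hc
  obtain ⟨R, hR⟩ := hK.isBounded.subset_closedBall x
  have hL : ∃ L : ℝ, L₁ ≤ L ∧ L₂ ≤ L ∧ R ≤ L ∧ 0 ≤ L :=
    ⟨max (max L₁ L₂) (max R 0), (le_max_left _ _).trans (le_max_left _ _),
      (le_max_right _ _).trans (le_max_left _ _), (le_max_left _ _).trans (le_max_right _ _),
      (le_max_right _ _).trans (le_max_right _ _)⟩
  obtain ⟨L, hl1, hl2, hl3, hl0⟩ := hL
  refine ⟨L, fun g h => ?_, fun y => ?_⟩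
  · rw [dist_eq hS]
    have h3 := h1 g h
    have h4 := h2 g h
    have h5 : L₁ * (wdist S g h : ℝ) ≤ L * wdist S g h := by gcongr
    have h6 : L₂ * dist (ρ g x) (ρ h x) ≤ L * dist (ρ g x) (ρ h x) := by gcongr
    constructor <;> linarith
  · have hy : y ∈ ⋃ g : G, (ρ g) '' K := by rw [hKu]; trivial
    obtain ⟨g, k, hk, rfl⟩ := mem_iUnion.1 hy
    refine ⟨g, ?_⟩
    rw [(ρ g).dist_eq]
    exact (mem_closedBall.1 (hR hk)).trans hl3

end

end Vale.Agent.P198.H372
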