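import Mathlib

/-!
# P198: the quotient of a proper metric space by a free proper isometric action

The orbit space with the distance between orbits is a metric space, locally isometric to the
original space, and its fundamental group is the group if the original space is simply connected.
-/

namespace Vale.Agent.P198.H372

open Metric Set Topology

section

variable {X G : Type} [MetricSpace X] [Group G] (ρ : G →* (X ≃ᵢ X))

/-- distance between orbits -/
noncomputable def od (x y : X) : ℝ := ⨅ g : G, dist x (ρ g y)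

variable {ρ}

theorem rho_mul (g h : G) (x : X) : ρ (g * h) x = ρ g (ρ h x) := by
  rw [map_mul]; rfl

theorem rho_one (x : X) : ρ 1 x = x := by
  rw [map_one]; rfl

theorem bdd (x y : X) : BddBelow (range fun g : G => dist x (ρ g y)) :=
  ⟨0, by rintro _ ⟨g, rfl⟩; exact dist_nonneg⟩

theorem od_le (x y : X) (g : G) : od ρ x y ≤ dist x (ρ g y) := ciInf_le (bdd x y) g

theorem od_nonneg (x y : X) : 0 ≤ od ρ x y := le_ciInf fun _ => dist_nonneg

theorem finite_le [ProperSpace X]
    (hp : ∀ K : Set X, IsCompact K → {g : G | ((ρ g) '' K ∩ K).Nonempty}.Finite) (x y : X) (R : ℝ) :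
    {g : G | dist x (ρ g y) ≤ R}.Finite := by
  have hK : IsCompact (closedBall x R ∪ {y}) := (isCompact_closedBall x R).union isCompact_singleton
  refine (hp _ hK).subset fun g hg => ?_
  refine ⟨ρ g y, ⟨y, Or.inr rfl, rfl⟩, Or.inl ?_⟩
  rw [mem_closedBall, dist_comm]
  exact hg

/-- the distance is attained -/
theorem exists_od [ProperSpace X]
    (hp : ∀ K : Set X, IsCompact K → {g : G | ((ρ g) '' K ∩ K).Nonempty}.Finite) (x y : X) :
    ∃ g : G, od ρ x y = dist x (ρ g y) := by
  obtain ⟨g, hg, hmin⟩ := (finite_le hp x y (dist x (ρ 1 y))).exists_minimalFor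
    (fun g => dist x (ρ g y)) _ ⟨1, le_refl (dist x (ρ (1 : G) y))⟩
  refine ⟨g, le_antisymm (od_le x y g) (le_ciInf fun h => ?_)⟩
  by_cases hh : dist x (ρ h y) ≤ dist x (ρ 1 y)
  · rcases le_total (dist x (ρ g y)) (dist x (ρ h y)) with h1 | h1
    · exact h1
    · exact hmin hh h1
  · exact hg.trans (not_le.1 hh).le

theorem od_comm (x y : X) : od ρ x y = od ρ y x := by
  have key : ∀ x y : X, od ρ x y ≤ od ρ y x := fun x y => le_ciInf fun g => by
    refine (od_le x y g⁻¹).trans (le_of_eq ?_)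
    rw [← (ρ g).dist_eq, ← rho_mul, mul_inv_cancel, rho_one, dist_comm]
  exact le_antisymm (key x y) (key y x)

theorem od_right (x y : X) (h : G) : od ρ x (ρ h y) = od ρ x y := by
  apply le_antisymm
  · refine le_ciInf fun g => ?_
    refine (od_le x _ (g * h⁻¹)).trans (le_of_eq ?_)
    rw [← rho_mul, inv_mul_cancel_right]
  · refine le_ciInf fun g => ?_
    rw [← rho_mul]
    exact od_le x y (g * h)

theorem od_left (x y : X) (h : G) : od ρ (ρ h x) y = od ρ x y := by
  rw [od_comm, od_right, od_comm]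

theorem od_tri [ProperSpace X]
    (hp : ∀ K : Set X, IsCompact K → {g : G | ((ρ g) '' K ∩ K).Nonempty}.Finite) (x y z : X) :
    od ρ x z ≤ od ρ x y + od ρ y z := by
  obtain ⟨g, hg⟩ := exists_od hp x y
  obtain ⟨h, hh⟩ := exists_od hp y z
  rw [hg, hh]
  calc od ρ x z ≤ dist x (ρ (g * h) z) := od_le _ _ _
    _ ≤ dist x (ρ g y) + dist (ρ g y) (ρ (g * h) z) := dist_triangle _ _ _
    _ = _ := by rw [rho_mul, (ρ g).dist_eq]

/-- points in one orbit -/
def orb (ρ : G →* (X ≃ᵢ X)) : Setoid X where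
  r x y := ∃ g : G, ρ g x = y
  iseqv :=
    { refl := fun x => ⟨1, rho_one x⟩
      symm := by
        rintro x y ⟨g, rfl⟩
        exact ⟨g⁻¹, by rw [← rho_mul, inv_mul_cancel, rho_one]⟩
      trans := by
        rintro x y z ⟨g, rfl⟩ ⟨h, rfl⟩
        exact ⟨h * g, rho_mul _ _ _⟩ }

/-- the orbit space -/
def OrbSp (ρ : G →* (X ≃ᵢ X)) : Type := Quotient (orb ρ)

/-- the orbit map -/
def toOrb (ρ : G →* (X ≃ᵢ X)) (x : X) : OrbSp ρ := Quotient.mk (orb ρ) x

theorem toOrb_surjective : Function.Surjective (toOrb ρ) := Quotient.mk_surjective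

theorem toOrb_eq (x y : X) : toOrb ρ x = toOrb ρ y ↔ ∃ g, ρ g x = y := Quotient.eq (r := orb ρ)

/-- the metric on the orbit space -/
@[reducible] noncomputable def orbMetric [ProperSpace X]
    (hp : ∀ K : Set X, IsCompact K → {g : G | ((ρ g) '' K ∩ K).Nonempty}.Finite) :
    MetricSpace (OrbSp ρ) where
  dist := Quotient.lift₂ (s₁ := orb ρ) (s₂ := orb ρ) (od ρ) (by
    rintro a₁ b₁ a₂ b₂ ⟨g, rfl⟩ ⟨h, rfl⟩
    rw [od_left, od_right])
  dist_self a := by
    obtain ⟨x, rfl⟩ := toOrb_surjective a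
    refine le_antisymm ?_ (od_nonneg x x)
    refine (od_le x x 1).trans (le_of_eq ?_)
    rw [rho_one, dist_self]
  dist_comm a b := by
    obtain ⟨x, rfl⟩ := toOrb_surjective a
    obtain ⟨y, rfl⟩ := toOrb_surjective b
    exact od_comm x y
  dist_triangle a b c := by
    obtain ⟨x, rfl⟩ := toOrb_surjective a
    obtain ⟨y, rfl⟩ := toOrb_surjective b
    obtain ⟨z, rfl⟩ := toOrb_surjective c
    exact od_tri hp x y z
  eq_of_dist_eq_zero {a b} := by
    obtain ⟨x, rfl⟩ := toOrb_surjective a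
    obtain ⟨y, rfl⟩ := toOrb_surjective b
    intro h
    obtain ⟨g, hg⟩ := exists_od hp x y
    have h2 : dist x (ρ g y) = 0 := by rw [← hg]; exact h
    rw [toOrb_eq]
    refine ⟨g⁻¹, ?_⟩
    rw [dist_eq_zero.1 h2, ← rho_mul, inv_mul_cancel, rho_one]

/-- the injectivity radius -/
theorem exists_inj [ProperSpace X]
    (hp : ∀ K : Set X, IsCompact K → {g : G | ((ρ g) '' K ∩ K).Nonempty}.Finite)
    (hf : ∀ (g : G) (x : X), ρ g x = x → g = 1) (x : X) :
    ∃ r : ℝ, 0 < r ∧ ∀ g : G, g ≠ 1 → 4 * r ≤ dist x (ρ g x) := by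
  have hfin := finite_le hp x x 1
  by_cases hne : ({g : G | dist x (ρ g x) ≤ 1} \ {1}).Nonempty
  · obtain ⟨g, hg, hmin⟩ := (hfin.subset sdiff_subset : ({g : G | dist x (ρ g x) ≤ 1} \ {1}).Finite).exists_minimalFor
      (fun g => dist x (ρ g x)) _ hne
    have hpos : 0 < dist x (ρ g x) := dist_pos.2 fun h => hg.2 (hf g x h.symm)
    refine ⟨dist x (ρ g x) / 4, by positivity, fun k hk => ?_⟩
    rw [mul_div_cancel₀ _ (by norm_num : (4 : ℝ) ≠ 0)]
    by_cases hk1 : dist x (ρ k x) ≤ 1
    · rcases le_total (dist x (ρ g x)) (dist x (ρ k x)) with h1 | h1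
      · exact h1
      · exact hmin ⟨hk1, hk⟩ h1
    · exact le_trans hg.1 (not_le.1 hk1).le
  · refine ⟨1 / 4, by norm_num, fun k hk => ?_⟩
    by_contra hcon
    refine hne ⟨k, ?_, hk⟩
    change dist x (ρ k x) ≤ 1
    push Not at hcon
    linarith

end

/-- **The quotient manifold.** -/
theorem exists_quotient {X G : Type} [MetricSpace X] [ProperSpace X] [SimplyConnectedSpace X]
    [Group G] (ρ : G →* (X ≃ᵢ X))
    (hp : ∀ K : Set X, IsCompact K → {g : G | ((ρ g) '' K ∩ K).Nonempty}.Finite)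
    (hc : ∃ K : Set X, IsCompact K ∧ ⋃ g : G, (ρ g) '' K = univ)
    (hf : ∀ (g : G) (x : X), ρ g x = x → g = 1) :
    ∃ (M : Type) (_ : MetricSpace M) (π : X → M), CompactSpace M ∧ ConnectedSpace M ∧
      (∀ x y, π x = π y ↔ ∃ g, ρ g x = y) ∧
      (∀ m : M, ∃ r > 0, ∃ x : X, Nonempty (ball m r ≃ᵢ ball x r)) ∧
      IsCoveringMap π ∧ ∀ m : M, Nonempty (FundamentalGroup M m ≃* G) := by
  let _ : MetricSpace (OrbSp ρ) := orbMetric hp
  let π : X → OrbSp ρ := toOrb ρ
  have hd : ∀ x y : X, dist (π x) (π y) = od ρ x y := fun x y => rfl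
  have hπ : Function.Surjective π := toOrb_surjective
  have hpi : ∀ x y, π x = π y ↔ ∃ g, ρ g x = y := fun x y => toOrb_eq x y
  have hpg : ∀ g x, π (ρ g x) = π x := fun g x => ((hpi x (ρ g x)).2 ⟨g, rfl⟩).symm
  have hcont : Continuous π := by
    refine LipschitzWith.continuous (K := 1) (LipschitzWith.of_dist_le_mul fun x y => ?_)
    rw [hd]
    refine (od_le x y 1).trans (le_of_eq ?_)
    rw [rho_one]; simp
  have hball : ∀ (x : X) (r : ℝ), π '' ball x r = ball (π x) r := by
    intro x r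
    ext m
    constructor
    · rintro ⟨y, hy, rfl⟩
      rw [mem_ball, hd]
      refine (od_le y x 1).trans_lt ?_
      rw [rho_one]
      exact hy
    · intro hm
      obtain ⟨y, rfl⟩ := hπ m
      rw [mem_ball, dist_comm, hd] at hm
      obtain ⟨g, hg⟩ := exists_od hp x y
      refine ⟨ρ g y, ?_, hpg g y⟩
      rw [mem_ball, dist_comm, ← hg]
      exact hm
  have hopen : IsOpenMap π := by
    intro U hU
    rw [Metric.isOpen_iff]
    rintro _ ⟨x, hx, rfl⟩
    obtain ⟨r, hr, hrU⟩ := Metric.isOpen_iff.1 hU x hx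
    refine ⟨r, hr, ?_⟩
    rw [← hball]
    exact image_mono hrU
  have hloc : ∀ x, ∃ r > 0, π '' ball x r = ball (π x) r ∧
        ∀ y ∈ ball x r, ∀ z ∈ ball x r, dist (π y) (π z) = dist y z := by
    intro x
    obtain ⟨r, hr, hr4⟩ := exists_inj hp hf x
    refine ⟨r, hr, hball x r, fun y hy z hz => ?_⟩
    rw [hd]
    apply le_antisymm
    · refine (od_le y z 1).trans (le_of_eq ?_)
      rw [rho_one]
    · refine le_ciInf fun g => ?_
      by_cases hg : g = 1
      · subst hg; rw [rho_one]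
      · have h1 := hr4 g hg
        have h2 : dist x (ρ g x) ≤ dist x y + dist y (ρ g z) + dist (ρ g z) (ρ g x) :=
          dist_triangle4 _ _ _ _
        rw [(ρ g).dist_eq] at h2
        rw [mem_ball] at hy hz
        have h3 : dist y z ≤ dist y x + dist x z := dist_triangle _ _ _
        rw [dist_comm x z] at h3
        rw [dist_comm x y] at h2
        linarith
  let _ : MulAction G X :=
    { smul := fun g x => ρ g x
      one_smul := fun x => rho_one x
      mul_smul := fun g h x => rho_mul g h x }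
  have hsm : ∀ (g : G) (x : X), g • x = ρ g x := fun _ _ => rfl
  have hq : IsQuotientCoveringMap π G :=
    { toIsQuotientMap := hopen.isQuotientMap hcont hπ
      continuous_const_smul := fun g => (ρ g).continuous
      apply_eq_iff_mem_orbit := by
        intro e₁ e₂
        rw [hpi]
        constructor
        · rintro ⟨g, rfl⟩
          refine ⟨g⁻¹, ?_⟩
          change g⁻¹ • ρ g e₁ = e₁
          rw [hsm, ← rho_mul, inv_mul_cancel, rho_one]
        · rintro ⟨g, rfl⟩
          refine ⟨g⁻¹, ?_⟩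
          change ρ g⁻¹ (ρ g e₂) = e₂
          rw [← rho_mul, inv_mul_cancel, rho_one]
      disjoint := by
        intro e
        obtain ⟨r, hr, hr4⟩ := exists_inj hp hf e
        refine ⟨ball e r, ball_mem_nhds e hr, ?_⟩
        rintro g ⟨_, ⟨y, hy, rfl⟩, hgy⟩
        by_contra hg
        have h1 := hr4 g hg
        have h2 : dist e (ρ g e) ≤ dist e (ρ g y) + dist (ρ g y) (ρ g e) := dist_triangle _ _ _
        rw [(ρ g).dist_eq] at h2
        have h3 : dist (ρ g y) e < r := hgy
        have h4 : dist y e < r := hy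
        rw [dist_comm e (ρ g y)] at h2
        linarith }
  obtain ⟨K, hK, hKu⟩ := hc
  have hcomp : CompactSpace (OrbSp ρ) := by
    refine ⟨?_⟩
    have : π '' K = univ := by
      rw [eq_univ_iff_forall]
      intro m
      obtain ⟨x, rfl⟩ := hπ m
      have hx : x ∈ ⋃ g : G, (ρ g) '' K := by rw [hKu]; trivial
      obtain ⟨g, k, hk, rfl⟩ := mem_iUnion.1 hx
      exact ⟨k, hk, (hpg g k).symm⟩
    rw [← this]
    exact hK.image hcont
  have hconn : ConnectedSpace (OrbSp ρ) := hπ.connectedSpace hcont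
  have hlocal : ∀ m : OrbSp ρ, ∃ r > 0, ∃ x : X, Nonempty (ball m r ≃ᵢ ball x r) := by
    intro m
    obtain ⟨x, rfl⟩ := hπ m
    obtain ⟨r, hr, hb, hiso⟩ := hloc x
    refine ⟨r, hr, x, ⟨?_⟩⟩
    let f : ball x r → ball (π x) r := fun y => ⟨π y.1, by rw [← hb]; exact ⟨y.1, y.2, rfl⟩⟩
    have hf1 : Isometry f := Isometry.of_dist_eq fun y z => hiso y.1 y.2 z.1 z.2
    have hf2 : Function.Surjective f := by
      rintro ⟨m, hm⟩
      rw [← hb] at hm
      obtain ⟨y, hy, rfl⟩ := hm
      exact ⟨⟨y, hy⟩, rfl⟩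
    exact (IsometryEquiv.mk (Equiv.ofBijective f ⟨hf1.injective, hf2⟩) hf1).symm
  refine ⟨OrbSp ρ, inferInstance, π, hcomp, hconn, hpi, hlocal, hq.isCoveringMap, fun m => ?_⟩
  obtain ⟨x, hx⟩ := hπ m
  exact ⟨(hq.fundamentalGroupEquiv ⟨x, hx⟩).trans (MulEquiv.inv' G).symm⟩

end Vale.Agent.P198.H372
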