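import Vale.Agent.P198.H3.Model

/-!
# P198 / P172: hyperbolic 3-space as a hyperboloid, Stewart's formula, geodesics
-/

namespace Vale.Agent.P198.H372

open Real P198H P198H.H3 Set

/-- coordinates of a point of the hyperboloid -/
noncomputable def m0 (p : H3) : ℝ := 1 / p.t
/-- coordinates of a point of the hyperboloid -/
noncomputable def m1 (p : H3) : ℝ := p.z.re / p.t
/-- coordinates of a point of the hyperboloid -/
noncomputable def m2 (p : H3) : ℝ := p.z.im / p.t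
/-- coordinates of a point of the hyperboloid -/
noncomputable def m3 (p : H3) : ℝ := (p.z.re ^ 2 + p.z.im ^ 2 + p.t ^ 2) / p.t

theorem m0_pos (p : H3) : 0 < m0 p := one_div_pos.2 p.t_pos

theorem cosh_eq (p q : H3) : cosh (dist p q) =
    (m0 p * m3 q + m3 p * m0 q) / 2 - m1 p * m1 q - m2 p * m2 q := by
  have hp := p.t_pos
  have hq := q.t_pos
  rw [cosh_dist, ← Complex.normSq_eq_norm_sq, Complex.normSq_apply, Complex.sub_re, Complex.sub_im,
    m0, m0, m1, m1, m2, m2, m3, m3]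
  field_simp
  ring

theorem norm_eq (p : H3) : m0 p * m3 p - m1 p ^ 2 - m2 p ^ 2 = 1 := by
  have hp := p.t_pos
  rw [m0, m1, m2, m3]
  field_simp
  ring

theorem ext_m {p q : H3} (h0 : m0 p = m0 q) (h1 : m1 p = m1 q) (h2 : m2 p = m2 q) : p = q := by
  have hp := p.t_pos
  have hq := q.t_pos
  have ht : p.t = q.t := by
    rw [m0, m0, one_div, one_div, inv_inj] at h0
    exact h0
  rw [m1, m1, ht, div_left_inj' hq.ne'] at h1
  rw [m2, m2, ht, div_left_inj' hq.ne'] at h2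
  exact H3.ext (Complex.ext h1 h2) ht

theorem of_vec {v0 v1 v2 v3 : ℝ} (h0 : 0 < v0) (h : v0 * v3 - v1 ^ 2 - v2 ^ 2 = 1) :
    ∃ p : H3, m0 p = v0 ∧ m1 p = v1 ∧ m2 p = v2 ∧ m3 p = v3 := by
  refine ⟨⟨⟨v1 / v0, v2 / v0⟩, 1 / v0, by positivity⟩, ?_, ?_, ?_, ?_⟩
  · rw [m0]; simp
  · rw [m1]; field_simp
  · rw [m2]; field_simp
  · rw [m3]
    simp only
    have h3 : v3 = (v1 ^ 2 + v2 ^ 2 + 1) / v0 := by
      rw [eq_div_iff h0.ne']
      linarith
    rw [h3]
    field_simp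

theorem null_vec {w0 w1 w2 w3 a b t : ℝ} (ht : 0 < t) (g1 : w0 * w3 - w1 ^ 2 - w2 ^ 2 = 0)
    (g3 : w0 * (a ^ 2 + b ^ 2 + t ^ 2) + w3 - 2 * w1 * a - 2 * w2 * b = 0) :
    w0 = 0 ∧ w1 = 0 ∧ w2 = 0 ∧ w3 = 0 := by
  have g4 : (w1 - w0 * a) ^ 2 + (w2 - w0 * b) ^ 2 + (w0 * t) ^ 2 = 0 := by
    linear_combination w0 * g3 - g1
  have j1 := sq_nonneg (w1 - w0 * a)
  have j2 := sq_nonneg (w2 - w0 * b)
  have j3 := sq_nonneg (w0 * t)
  have k0 : w0 * t = 0 := pow_eq_zero_iff two_ne_zero |>.1 (le_antisymm (by linarith) j3)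
  have k0' : w0 = 0 := (mul_eq_zero.1 k0).resolve_right ht.ne'
  subst k0'
  have j4 := sq_nonneg w1
  have j5 := sq_nonneg w2
  have k1 : w1 = 0 := pow_eq_zero_iff two_ne_zero |>.1 (le_antisymm (by linarith) j4)
  have k2 : w2 = 0 := pow_eq_zero_iff two_ne_zero |>.1 (le_antisymm (by linarith) j5)
  subst k1 k2
  exact ⟨rfl, rfl, rfl, by linarith⟩

theorem stewart_aux {A C D cs ca K p0 p1 p2 p3 x0 x1 x2 x3 y0 y1 y2 y3 : ℝ}
    (f1 : cs = (x0 * p3 + x3 * p0) / 2 - x1 * p1 - x2 * p2)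
    (f2 : K = (p0 * y3 + p3 * y0) / 2 - p1 * y1 - p2 * y2)
    (f3 : ca = (x0 * y3 + x3 * y0) / 2 - x1 * y1 - x2 * y2)
    (e1 : p0 * p3 - p1 ^ 2 - p2 ^ 2 = 1) (e2 : x0 * x3 - x1 ^ 2 - x2 ^ 2 = 1)
    (e3 : y0 * y3 - y1 ^ 2 - y2 ^ 2 = 1) (hC : C = A * cs - ca * D) (hK : K = ca * cs - A * D)
    (ha2 : ca ^ 2 = A ^ 2 + 1) (hs2 : cs ^ 2 = D ^ 2 + 1) :
    (A * p0 - C * x0 - D * y0) * (A * p3 - C * x3 - D * y3) - (A * p1 - C * x1 - D * y1) ^ 2 -
      (A * p2 - C * x2 - D * y2) ^ 2 = 0 ∧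
    ((A * p0 - C * x0 - D * y0) * x3 + (A * p3 - C * x3 - D * y3) * x0) / 2 -
      (A * p1 - C * x1 - D * y1) * x1 - (A * p2 - C * x2 - D * y2) * x2 = 0 := by
  constructor
  · have : (A * p0 - C * x0 - D * y0) * (A * p3 - C * x3 - D * y3) -
        (A * p1 - C * x1 - D * y1) ^ 2 - (A * p2 - C * x2 - D * y2) ^ 2 =
        A ^ 2 + C ^ 2 + D ^ 2 - 2 * A * C * cs - 2 * A * D * K + 2 * C * D * ca := by
      linear_combination A ^ 2 * e1 + C ^ 2 * e2 + D ^ 2 * e3 + 2 * A * C * f1 + 2 * A * D * f2 -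
        2 * C * D * f3
    rw [this, hK, hC]
    linear_combination (-A ^ 2) * hs2 + (-D ^ 2) * ha2
  · have : ((A * p0 - C * x0 - D * y0) * x3 + (A * p3 - C * x3 - D * y3) * x0) / 2 -
      (A * p1 - C * x1 - D * y1) * x1 - (A * p2 - C * x2 - D * y2) * x2 =
      A * cs - C - D * ca := by
      linear_combination -A * f1 - C * e2 + D * f3
    rw [this, hC]
    ring

/-- **Stewart's formula** in hyperbolic 3-space -/
theorem stewart {x y p : H3} {s : ℝ} (h1 : dist x p = s) (h2 : dist p y = dist x y - s) (q : H3) :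
    sinh (dist x y) * cosh (dist p q) =
      sinh (dist x y - s) * cosh (dist x q) + sinh s * cosh (dist y q) := by
  have f1 := cosh_eq x p
  have f2 := cosh_eq p y
  have f3 := cosh_eq x y
  rw [h1] at f1
  rw [h2] at f2
  obtain ⟨g1, g2⟩ := stewart_aux f1 f2 f3 (norm_eq p) (norm_eq x) (norm_eq y)
    (sinh_sub (dist x y) s) (cosh_sub (dist x y) s) (cosh_sq (dist x y)) (cosh_sq s)
  generalize hA : sinh (dist x y) = A at *
  generalize hC : sinh (dist x y - s) = C at *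
  generalize hD : sinh s = D at *
  have hx := x.t_pos
  have g3 : (A * m0 p - C * m0 x - D * m0 y) * (x.z.re ^ 2 + x.z.im ^ 2 + x.t ^ 2) +
      (A * m3 p - C * m3 x - D * m3 y) - 2 * (A * m1 p - C * m1 x - D * m1 y) * x.z.re -
      2 * (A * m2 p - C * m2 x - D * m2 y) * x.z.im = 0 := by
    generalize A * m0 p - C * m0 x - D * m0 y = w0 at *
    generalize A * m1 p - C * m1 x - D * m1 y = w1 at *
    generalize A * m2 p - C * m2 x - D * m2 y = w2 at *
    generalize A * m3 p - C * m3 x - D * m3 y = w3 at *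
    rw [m0, m1, m2, m3] at g2
    field_simp at g2
    linarith
  obtain ⟨k0, k1, k2, k3⟩ := null_vec hx g1 g3
  rw [cosh_eq p q, cosh_eq x q, cosh_eq y q]
  linear_combination (m3 q / 2) * k0 + (m0 q / 2) * k3 - m1 q * k1 - m2 q * k2

theorem eq_of_cosh {u v : ℝ} (hu : 0 ≤ u) (hv : 0 ≤ v) (h : cosh u = cosh v) : u = v := by
  have h1 := cosh_le_cosh.1 h.le
  have h2 := cosh_le_cosh.1 h.ge
  rw [abs_of_nonneg hu, abs_of_nonneg hv] at h1 h2
  exact le_antisymm h1 h2

/-- hyperbolic 3-space is a geodesic space -/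
theorem exists_geodesic (x y : H3) : ∃ γ : ℝ → H3, γ 0 = x ∧ γ (dist x y) = y ∧
    ∀ s ∈ Icc 0 (dist x y), ∀ t ∈ Icc 0 (dist x y), dist (γ s) (γ t) = |s - t| := by
  by_cases hxy : x = y
  · subst hxy
    refine ⟨fun _ => x, rfl, rfl, fun s hs t ht => ?_⟩
    rw [dist_self] at hs ht ⊢
    have h1 : s = 0 := le_antisymm hs.2 hs.1
    have h2 : t = 0 := le_antisymm ht.2 ht.1
    rw [h1, h2]; simp
  have ha0 : 0 < dist x y := dist_pos.2 hxy
  set a := dist x y with ha
  have hA : 0 < sinh a := sinh_pos_iff.2 ha0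
  have f3 := cosh_eq x y
  rw [← ha] at f3
  have e2 := norm_eq x
  have e3 := norm_eq y
  have ha2 := cosh_sq a
  have key : ∀ s ∈ Icc 0 a, ∃ p : H3,
      m0 p = (sinh (a - s) * m0 x + sinh s * m0 y) / sinh a ∧
      m1 p = (sinh (a - s) * m1 x + sinh s * m1 y) / sinh a ∧
      m2 p = (sinh (a - s) * m2 x + sinh s * m2 y) / sinh a ∧
      m3 p = (sinh (a - s) * m3 x + sinh s * m3 y) / sinh a := by
    intro s hs
    have h1 : 0 ≤ sinh (a - s) := sinh_nonneg_iff.2 (by linarith [hs.2])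
    have h2 : 0 ≤ sinh s := sinh_nonneg_iff.2 hs.1
    have h3 : 0 < sinh (a - s) + sinh s := by
      rcases hs.1.eq_or_lt with h | h
      · rw [← h, sub_zero, sinh_zero, add_zero]; exact hA
      · have := sinh_pos_iff.2 h
        linarith
    have hx0 := m0_pos x
    have hy0 := m0_pos y
    refine of_vec ?_ ?_
    · refine div_pos ?_ hA
      rcases h1.eq_or_lt with h | h
      · have : 0 < sinh s := by linarith
        positivity
      · positivity
    · have hC : sinh (a - s) = sinh a * cosh s - cosh a * sinh s := sinh_sub a s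
      have hs2 := cosh_sq s
      have : (sinh (a - s) * m0 x + sinh s * m0 y) * (sinh (a - s) * m3 x + sinh s * m3 y) -
          (sinh (a - s) * m1 x + sinh s * m1 y) ^ 2 - (sinh (a - s) * m2 x + sinh s * m2 y) ^ 2 =
          sinh a ^ 2 := by
        have h4 : (sinh (a - s) * m0 x + sinh s * m0 y) * (sinh (a - s) * m3 x + sinh s * m3 y) -
          (sinh (a - s) * m1 x + sinh s * m1 y) ^ 2 - (sinh (a - s) * m2 x + sinh s * m2 y) ^ 2 =
          sinh (a - s) ^ 2 + sinh s ^ 2 + 2 * sinh (a - s) * sinh s * cosh a := by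
          linear_combination sinh (a - s) ^ 2 * e2 + sinh s ^ 2 * e3 -
            2 * sinh (a - s) * sinh s * f3
        rw [h4, hC]
        linear_combination (sinh a ^ 2) * hs2 - (sinh s ^ 2) * ha2
      field_simp
      linarith
  choose γ g0 g1 g2 g3 using key
  have hγ : ∀ s (hs : s ∈ Icc 0 a) t (ht : t ∈ Icc 0 a), dist (γ s hs) (γ t ht) = |s - t| := by
    intro s hs t ht
    refine eq_of_cosh dist_nonneg (abs_nonneg _) ?_
    rw [cosh_abs, cosh_eq, g0, g1, g2, g3, g0, g1, g2, g3, cosh_sub]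
    have hC : sinh (a - s) = sinh a * cosh s - cosh a * sinh s := sinh_sub a s
    have hC' : sinh (a - t) = sinh a * cosh t - cosh a * sinh t := sinh_sub a t
    have h5 : ((sinh (a - s) * m0 x + sinh s * m0 y) * (sinh (a - t) * m3 x + sinh t * m3 y) +
        (sinh (a - s) * m3 x + sinh s * m3 y) * (sinh (a - t) * m0 x + sinh t * m0 y)) / 2 -
        (sinh (a - s) * m1 x + sinh s * m1 y) * (sinh (a - t) * m1 x + sinh t * m1 y) -
        (sinh (a - s) * m2 x + sinh s * m2 y) * (sinh (a - t) * m2 x + sinh t * m2 y) =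
        sinh a ^ 2 * (cosh s * cosh t - sinh s * sinh t) := by
      have h6 : ((sinh (a - s) * m0 x + sinh s * m0 y) * (sinh (a - t) * m3 x + sinh t * m3 y) +
        (sinh (a - s) * m3 x + sinh s * m3 y) * (sinh (a - t) * m0 x + sinh t * m0 y)) / 2 -
        (sinh (a - s) * m1 x + sinh s * m1 y) * (sinh (a - t) * m1 x + sinh t * m1 y) -
        (sinh (a - s) * m2 x + sinh s * m2 y) * (sinh (a - t) * m2 x + sinh t * m2 y) =
        sinh (a - s) * sinh (a - t) + sinh s * sinh t +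
          (sinh (a - s) * sinh t + sinh s * sinh (a - t)) * cosh a := by
        linear_combination sinh (a - s) * sinh (a - t) * e2 + sinh s * sinh t * e3 -
          (sinh (a - s) * sinh t + sinh s * sinh (a - t)) * f3
      rw [h6, hC, hC']
      linear_combination (-(sinh s * sinh t)) * ha2
    field_simp
    linear_combination 2 * h5
  refine ⟨fun s => if hs : s ∈ Icc 0 a then γ s hs else x, ?_, ?_, ?_⟩
  · have h0 : (0 : ℝ) ∈ Icc 0 a := ⟨le_rfl, ha0.le⟩
    simp only [dif_pos h0]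
    refine ext_m ?_ ?_ ?_
    · rw [g0]; simp [hA.ne']
    · rw [g1]; simp [hA.ne']
    · rw [g2]; simp [hA.ne']
  · have h0 : a ∈ Icc 0 a := ⟨ha0.le, le_rfl⟩
    simp only [dif_pos h0]
    refine ext_m ?_ ?_ ?_
    · rw [g0]; simp [hA.ne']
    · rw [g1]; simp [hA.ne']
    · rw [g2]; simp [hA.ne']
  · intro s hs t ht
    simp only [dif_pos hs, dif_pos ht]
    exact hγ s hs t ht

end Vale.Agent.P198.H372
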